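import Vale.Agent.P148.R2.H126.Rf
import Vale.Agent.P148.R2.H532.Av3
import Vale.Agent.P148.R2.H172.N3c
import Vale.Agent.P148.R2.H504.Tk
import Vale.Agent.P148.R2.H995.CalE1

/-!
# P148, row N4W: the quenched mean of the energy near a gate, for the law of the comb

* `spl g` : the law of gates with hubs and corridors counted as different gates (same composite
  colouring, same means).  A region `N` which contains or misses every hub box is then admissible
  for the near lemmas, although corridors cross its boundary.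
* `RU M m k` : the union of the regions `k - m, …, k + m`.
* `qe_WX` : the quenched mean of the energy of the windows at the near cell `k`.
-/

open Finset
open scoped Classical

namespace Vale.Agent.P148.R2.H409

open Vale.Agent.P148.R2.H953 Vale.Agent.P148.R2.H172

set_option linter.unusedSectionVars false

/-! ### hubs and corridors as different gates -/

section split

variable {V : Type*} [Fintype V] (g : GateLaw V)

/-- The hubs are the gates `k < n`, the corridors the gates `n + k`. -/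
noncomputable def spl : GateLaw V where
  n := 2 * g.n
  Hub k := if k < g.n then g.Hub k else fun _ => ∅
  HB k := if k < g.n then g.HB k else ∅
  CB k := if k < g.n then ∅ else g.CB (k - g.n)
  He k := if k < g.n then g.He k else fun _ => True
  Ce k := if k < g.n then fun _ => True else g.Ce (k - g.n)
  stop k _ := by
    by_cases h : k < g.n
    · rw [if_pos h]; exact g.stop k h
    · rw [if_neg h]; exact fun _ _ _ => rfl
  heOn k _ := by
    by_cases h : k < g.n
    · rw [if_pos h, if_pos h]; exact g.heOn k h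
    · rw [if_neg h, if_neg h]; exact fun _ _ _ => rfl
  ceOn k hk := by
    by_cases h : k < g.n
    · rw [if_pos h, if_pos h]; exact fun _ _ _ => rfl
    · rw [if_neg h, if_neg h]; exact g.ceOn _ (by omega)
  sub k _ σ hσ := by
    by_cases h : k < g.n
    · rw [if_pos h] at hσ ⊢
      rw [if_pos h]
      exact g.sub k h σ hσ
    · rw [if_neg h]
      exact Set.empty_subset _
  dH j _ k _ hjk := by
    by_cases h1 : j < g.n
    · by_cases h2 : k < g.n
      · rw [if_pos h1, if_pos h2]; exact g.dH j h1 k h2 hjk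
      · rw [if_neg h2]; exact Set.disjoint_empty _
    · rw [if_neg h1]; exact Set.empty_disjoint _
  dC j hj k hk hjk := by
    by_cases h1 : j < g.n
    · rw [if_pos h1]; exact Set.empty_disjoint _
    · by_cases h2 : k < g.n
      · rw [if_pos h2]; exact Set.disjoint_empty _
      · rw [if_neg h1, if_neg h2]
        exact g.dC _ (by omega) _ (by omega) (by omega)

variable {g}

theorem spl_A0 {c₁ c₂ : V → Bool} : (spl g).A0 c₁ c₂ ↔ g.A0 c₁ c₂ := by
  constructor
  · intro h k hk
    have h1 := h k (show k < 2 * g.n by omega)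
    have h2 := h (k + g.n) (show k + g.n < 2 * g.n by omega)
    have e1 : (spl g).He k = g.He k := if_pos hk
    have e2 : (spl g).Ce (k + g.n) = g.Ce k := by
      have : (spl g).Ce (k + g.n) = g.Ce (k + g.n - g.n) := if_neg (by omega)
      rwa [Nat.add_sub_cancel] at this
    rw [e1] at h1
    rw [e2] at h2
    exact ⟨h1.1, h2.2⟩
  · intro h k hk
    by_cases hk' : k < g.n
    · have e1 : (spl g).He k = g.He k := if_pos hk'
      have e2 : (spl g).Ce k = fun _ => True := if_pos hk'
      rw [e1, e2]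
      exact ⟨(h k hk').1, trivial⟩
    · have e1 : (spl g).He k = fun _ => True := if_neg hk'
      have e2 : (spl g).Ce k = g.Ce (k - g.n) := if_neg hk'
      have hk2 : k < 2 * g.n := hk
      rw [e1, e2]
      exact ⟨trivial, (h (k - g.n) (by omega)).2⟩

theorem spl_w (c₁ c₂ : V → Bool) : (spl g).w c₁ c₂ = g.w c₁ c₂ := by
  have e : (⋃ k ∈ range (spl g).n, (spl g).Hub k c₁) = ⋃ k ∈ range g.n, g.Hub k c₁ := by
    ext v
    simp only [Set.mem_iUnion, exists_prop, mem_range]
    constructor
    · rintro ⟨k, hk, hv⟩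
      by_cases hk' : k < g.n
      · have e1 : (spl g).Hub k = g.Hub k := if_pos hk'
        rw [e1] at hv
        exact ⟨k, hk', hv⟩
      · have e1 : (spl g).Hub k = fun _ => ∅ := if_neg hk'
        rw [e1] at hv
        exact absurd hv (Set.notMem_empty v)
    · rintro ⟨k, hk, hv⟩
      have e1 : (spl g).Hub k = g.Hub k := if_pos hk
      exact ⟨k, show k < 2 * g.n by omega, by rw [e1]; exact hv⟩
  unfold GateLaw.w GateLaw.W
  rw [e]

theorem spl_qe (f : (V → Bool) → (V → Bool) → ℝ) : (spl g).qe f = g.qe f := by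
  rw [GateLaw.qe_eq, GateLaw.qe_eq]
  simp only [spl_A0]

theorem spl_He {c : ℝ} (hH : ∀ k < g.n, c ≤ H953.pr (g.He k)) :
    ∀ k < (spl g).n, c ≤ H953.pr ((spl g).He k) := by
  intro k hk
  have hk2 : k < 2 * g.n := hk
  by_cases hk' : k < g.n
  · have e1 : (spl g).He k = g.He k := if_pos hk'
    rw [e1]
    exact hH k hk'
  · have e1 : (spl g).He k = fun _ => True := if_neg hk'
    rw [e1, H953.pr_true]
    exact (hH 0 (by omega)).trans (H953.pr_le_one _)

theorem spl_Ce {c : ℝ} (hC : ∀ k < g.n, c ≤ H953.pr (g.Ce k)) :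
    ∀ k < (spl g).n, c ≤ H953.pr ((spl g).Ce k) := by
  intro k hk
  have hk2 : k < 2 * g.n := hk
  by_cases hk' : k < g.n
  · have e1 : (spl g).Ce k = fun _ => True := if_pos hk'
    rw [e1, H953.pr_true]
    exact (hC 0 (by omega)).trans (H953.pr_le_one _)
  · have e1 : (spl g).Ce k = g.Ce (k - g.n) := if_neg hk'
    rw [e1]
    exact hC _ (by omega)

/-- The gates of the split law which touch `N`. -/
noncomputable def tS (g : GateLaw V) (tH tC : Finset ℕ) : Finset ℕ :=
  tH ∪ tC.image fun k => k + g.n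

theorem card_tS (tH tC : Finset ℕ) : (tS g tH tC).card ≤ tH.card + tC.card :=
  (card_union_le _ _).trans (Nat.add_le_add_left card_image_le _)

theorem spl_touch {N : Set V} {tH tC : Finset ℕ} (h1 : tH ⊆ range g.n) (h2 : tC ⊆ range g.n)
    (hH : ∀ k < g.n, k ∉ tH → Disjoint (g.HB k) N)
    (hC : ∀ k < g.n, k ∉ tC → Disjoint (g.CB k) N) : (spl g).Touch N (tS g tH tC) := by
  refine ⟨fun k hk => ?_, fun k hk hkt => ?_⟩
  · unfold tS at hk
    rw [mem_union, mem_image] at hk
    apply mem_range.2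
    change k < 2 * g.n
    rcases hk with hk | ⟨j, hj, rfl⟩
    · have := mem_range.1 (h1 hk); omega
    · have := mem_range.1 (h2 hj); omega
  · have hk2 : k < 2 * g.n := hk
    unfold tS at hkt
    rw [mem_union, not_or, mem_image] at hkt
    by_cases hk' : k < g.n
    · have e1 : (spl g).HB k = g.HB k := if_pos hk'
      have e2 : (spl g).CB k = ∅ := if_pos hk'
      rw [e1, e2]
      exact ⟨hH k hk' hkt.1, Set.empty_disjoint _⟩
    · have e1 : (spl g).HB k = ∅ := if_neg hk'
      have e2 : (spl g).CB k = g.CB (k - g.n) := if_neg hk'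
      rw [e1, e2]
      refine ⟨Set.empty_disjoint _, hC _ (by omega) fun h => hkt.2 ⟨_, h, by omega⟩⟩

theorem spl_in {N : Set V} {tH tC : Finset ℕ} (h1 : tH ⊆ range g.n)
    (hH : ∀ k ∈ tH, g.HB k ⊆ N) : ∀ k ∈ tS g tH tC, (spl g).HB k ⊆ N := by
  intro k hk
  unfold tS at hk
  rw [mem_union, mem_image] at hk
  rcases hk with hk | ⟨j, hj, rfl⟩
  · have e1 : (spl g).HB k = g.HB k := if_pos (mem_range.1 (h1 hk))
    rw [e1]
    exact hH k hk
  · have e1 : (spl g).HB (j + g.n) = ∅ := if_neg (by omega)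
    rw [e1]
    exact Set.empty_subset _

end split

/-! ### the near region -/

open Vale.Agent.P148.R2.N (ms nc gateC gbox cell csq ms_pos cellC)
open Vale.Agent.P148.R2.H959 (reg)
open Vale.Agent.P148.R2.H938 (HBx CBx)

variable {M : ℕ}

/-- The union of the regions `k - m, …, k + m`. -/
def RU (M m k : ℕ) : Set ℂ := {z | ∃ u, k ≤ u + m ∧ u ≤ k + m ∧ z ∈ reg M u}

theorem reg_mod' (M k : ℕ) : reg M (k % nc M) = reg M k := by
  have h := Nat.mod_add_div k (nc M)
  conv_rhs => rw [← h]
  induction k / nc M with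
  | zero => rw [mul_zero, add_zero]
  | succ n ih => rw [Nat.mul_succ, ← add_assoc, H959.reg_add_nc, ← ih]

/-- A hub box is inside the near region or misses it. -/
theorem hbx_RU (hM : 0 < M) {m k l : ℕ} (hl : l < nc M) :
    HBx M l ⊆ RU M m k ∨ Disjoint (HBx M l) (RU M m k) := by
  have hn := H995.twelve_le_nc hM
  have hg : HBx M l ⊆ gbox M l :=
    Set.union_subset (H995.hbox_pin_sub hM l) (H995.hbox_pout_sub hM l)
  by_cases h : ∃ u, k ≤ u + m ∧ u ≤ k + m ∧ (l = u % nc M ∨ l = (u + 1) % nc M)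
  · left
    obtain ⟨u, h1, h2, h3 | h3⟩ := h
    · intro z hz
      refine ⟨u, h1, h2, H959.gbox_subset_reg M u ?_⟩
      rw [← N.gbox_mod M u, ← h3]
      exact hg hz
    · intro z hz
      refine ⟨u, h1, h2, H959.gbox_succ_subset_reg hM u ?_⟩
      rw [← N.gbox_mod M (u + 1), ← h3]
      exact hg hz
  · right
    rw [Set.disjoint_left]
    rintro z hz ⟨u, h1, h2, h3⟩
    have h4 : ¬ (l = u % nc M ∨ l = (u + 1) % nc M) := fun h4 => h ⟨u, h1, h2, h4⟩
    rw [not_or] at h4
    obtain ⟨h5, h6⟩ := h4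
    rw [← reg_mod'] at h3
    have hu : u % nc M < nc M := Nat.mod_lt _ (by omega)
    have h7 : (u + 1) % nc M = (u % nc M + 1) % nc M := by
      rw [Nat.add_mod, Nat.mod_eq_of_lt (show 1 < nc M by omega)]
    rw [h7] at h6
    rcases Nat.lt_or_ge l (u % nc M) with h8 | h8
    · by_cases h9 : u % nc M + 1 = nc M
      · rw [h9, Nat.mod_self] at h6
        exact Set.disjoint_left.1 (H995.reg_gbox_disj hM (k := u % nc M) (l := l) (by omega)
          (by omega)) h3 (hg hz)
      · exact Set.disjoint_left.1 (H995.reg_gbox_disj hM (k := u % nc M) (l := l) (by omega)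
          (by omega)) h3 (hg hz)
    · rw [Nat.mod_eq_of_lt (show u % nc M + 1 < nc M by omega)] at h6
      rw [← H959.reg_add_nc] at h3
      exact Set.disjoint_left.1 (H995.reg_gbox_disj hM (k := u % nc M + nc M) (l := l) (by omega)
          (by omega)) h3 (hg hz)

/-- The near region is in the window of the cell. -/
theorem RU_sub (hM : 0 < M) {m k : ℕ} :
    RU M m k ⊆ csq (cellC M k) (5 * ms M / 8 + m * ms M) := by
  rintro z ⟨u, h1, h2, h3⟩
  exact H959.reg_subset_window hM (by omega) (by omega) h3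

theorem cellC_mod (M k : ℕ) : cellC M (k % nc M) = cellC M k := by
  have h := Nat.mod_add_div k (nc M)
  conv_rhs => rw [← h]
  induction k / nc M with
  | zero => rw [mul_zero, add_zero]
  | succ n ih => rw [Nat.mul_succ, ← add_assoc, N.cellC_add_nc, ← ih]

theorem far_RU (hM : 0 < M) {k l : ℕ} (hl : l < nc M)
    (h : l ∉ H504.near (nc M) 11 (k % nc M)) :
    Disjoint (HBx M l) (RU M 3 k) ∧ Disjoint (CBx M l) (RU M 3 k) := by
  have hn := H995.twelve_le_nc hM
  have h0 := ms_pos hM
  have h1 := H504.far_cell hM (Nat.mod_lt k (show 0 < nc M by omega)) hl h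
  rw [cellC_mod] at h1
  have h2 : Disjoint (csq (cellC M l) (9 / 4 * ms M)) (csq (cellC M k) (5 * ms M / 8 + 3 * ms M)) :=
    H504.disjoint_of_nsup (by push_cast at h1; linarith)
  have h3 : Disjoint (csq (cellC M l) (9 / 4 * ms M)) (RU M 3 k) :=
    h2.mono_right (by
      have := RU_sub hM (m := 3) (k := k)
      push_cast at this
      exact this)
  exact ⟨h3.mono_left (H504.hbx_sub_csq hM l), h3.mono_left (H504.cbx_sub_csq hM l)⟩

/-- A gate box away from the near region. -/
theorem gbox_RU (hM : 0 < M) {m k a : ℕ} (h1 : a + m + 1 ≤ k) (h2 : k + m + 2 ≤ a + nc M) :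
    Disjoint (gbox M a) (RU M m k) := by
  rw [Set.disjoint_left]
  rintro z hz ⟨u, h3, h4, h5⟩
  exact Set.disjoint_left.1 (H995.reg_gbox_disj hM (k := u) (l := a) (by omega) (by omega)) h5 hz

/-! ### the mean -/

section mean

open Vale.Agent.P148.R2.H592 (HullTri nbr Fc)
open Vale.Agent.P148.R2.H258 (Tri)
open Vale.Agent.P148.R2.H532 (WX frz_avg)
open Vale.Agent.P148.R2.H126 (rf rf_congr Rs)

variable {X : Set ℂ} [Fintype X] {b : ZMod 3 → ℂ}

/-- The near sites. -/
def NX (X : Set ℂ) (M m k : ℕ) : Set X := Subtype.val ⁻¹' RU M m k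

/-- The touched hubs. -/
noncomputable def tHX (X : Set ℂ) (M k : ℕ) : Finset ℕ :=
  (H504.near (nc M) 11 (k % nc M)).filter fun l => HBx M l ⊆ RU M 3 k

theorem touchX (hM : 0 < M) (k : ℕ) : (spl (combLaw hM X (Subtype.val : X → ℂ))).Touch (NX X M 3 k)
    (tS (combLaw hM X (Subtype.val : X → ℂ)) (tHX X M k) (H504.near (nc M) 11 (k % nc M))) := by
  have hsub : H504.near (nc M) 11 (k % nc M) ⊆ range (nc M) := by
    unfold H504.near
    exact filter_subset _ _
  refine spl_touch ((filter_subset _ _).trans hsub) hsub (fun l hl hlt => ?_) (fun l hl hlt => ?_)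
  · refine Disjoint.preimage _ ?_
    by_cases h1 : l ∈ H504.near (nc M) 11 (k % nc M)
    · rcases hbx_RU hM (m := 3) (k := k) hl with h2 | h2
      · exact absurd (mem_filter.2 ⟨h1, h2⟩) hlt
      · exact h2
    · exact (far_RU hM hl h1).1
  · exact Disjoint.preimage _ (far_RU hM hl hlt).2

theorem inX (hM : 0 < M) (k : ℕ) : ∀ l ∈ tS (combLaw hM X (Subtype.val : X → ℂ)) (tHX X M k)
    (H504.near (nc M) 11 (k % nc M)), (spl (combLaw hM X (Subtype.val : X → ℂ))).HB l ⊆ NX X M 3 k := by
  have hsub : H504.near (nc M) 11 (k % nc M) ⊆ range (nc M) := by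
    unfold H504.near
    exact filter_subset _ _
  refine spl_in ((filter_subset _ _).trans hsub) fun l hl => ?_
  exact Set.preimage_mono (mem_filter.1 hl).2

theorem card_X (hM : 0 < M) (k : ℕ) : (tS (combLaw hM X (Subtype.val : X → ℂ)) (tHX X M k)
    (H504.near (nc M) 11 (k % nc M))).card ≤ 48 := by
  have h1 : (H504.near (nc M) 11 (k % nc M)).card ≤ 2 * (11 + 1) :=
    H504.card_near (by have := H995.twelve_le_nc hM; omega)
  have h2 : (tHX X M k).card ≤ (H504.near (nc M) 11 (k % nc M)).card := card_filter_le _ _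
  have h3 := card_tS (g := combLaw hM X (Subtype.val : X → ℂ)) (tHX X M k)
    (H504.near (nc M) 11 (k % nc M))
  omega

/-- **Quenched mean of the energy of the windows at the near cell `k`**: the reference feet are the
canonical feet of the gates `a₁`, `a₂`. -/
theorem qe_WX (hM : 0 < M) (h : HullTri X b) (x₀ : X) {T : Tri X (Fc X b × ZMod 3)}
    [Fintype (Fc X b × ZMod 3)] (hP : T.Planar) {τ : ℂ} (hτ : τ ^ 2 + τ + 1 = 0)
    {Θ : Fc X b × ZMod 3 → ℂ} (hΘ : ∀ d, Θ (T.nxt d) = τ ^ 2 * Θ d) {c : ℝ} (hc : 0 < c)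
    (hH : ∀ k < nc M, c ≤ H953.pr ((combLaw hM X (Subtype.val : X → ℂ)).He k))
    (hC : ∀ k < nc M, c ≤ H953.pr ((combLaw hM X (Subtype.val : X → ℂ)).Ce k))
    {L k a₁ a₂ : ℕ} {N : Set X} (h1 : a₁ + 4 ≤ k) (h2 : k + 5 ≤ a₁ + nc M) (h3 : a₂ + 4 ≤ k)
    (h4 : k + 5 ≤ a₂ + nc M) :
    (combLaw hM X (Subtype.val : X → ℂ)).qe (fun c₁ c₂ => ex fun c₃ =>
      WX T L N (rf h x₀ M ((combLaw hM X (Subtype.val : X → ℂ)).w c₁ c₂) a₁,
        rf h x₀ M ((combLaw hM X (Subtype.val : X → ℂ)).w c₁ c₂) a₂)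
        ((combLaw hM X (Subtype.val : X → ℂ)).w c₁ c₂) Θ
        (glue (Rs T L N (NX X M 3 k) (rf h x₀ M ((combLaw hM X (Subtype.val : X → ℂ)).w c₁ c₂) a₁)
          ((combLaw hM X (Subtype.val : X → ℂ)).w c₁ c₂))
          ((combLaw hM X (Subtype.val : X → ℂ)).w c₁ c₂) c₃)) ≤
      (c ^ 96)⁻¹ * (2 * ∑ d, ‖Θ d‖ ^ 2) := by
  have hn := H995.twelve_le_nc hM
  have hc1 : c ≤ 1 := (hH 0 (by omega)).trans (H953.pr_le_one _)
  have ho : ∀ x x' : X → Bool, (∀ v ∉ NX X M 3 k, x' v = x v) →
      (fun y : X → Bool => (rf h x₀ M y a₁, rf h x₀ M y a₂)) x' =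
        (fun y : X → Bool => (rf h x₀ M y a₁, rf h x₀ M y a₂)) x := by
    intro x x' hx
    have e1 : rf h x₀ M x' a₁ = rf h x₀ M x a₁ := rf_congr fun v hv => hx v fun hN =>
      Set.disjoint_left.1 (gbox_RU hM (m := 3) (k := k) (a := a₁) (by omega) (by omega)) hv hN
    have e2 : rf h x₀ M x' a₂ = rf h x₀ M x a₂ := rf_congr fun v hv => hx v fun hN =>
      Set.disjoint_left.1 (gbox_RU hM (m := 3) (k := k) (a := a₂) (by omega) (by omega)) hv hN
    dsimp only
    rw [e1, e2]
  have key := frz_avg (g := spl (combLaw hM X (Subtype.val : X → ℂ))) (L := L) (N := N) hc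
    (spl_He hH) (spl_Ce hC) hP hτ hΘ (touchX hM k) (inX hM k)
    (o := fun y : X → Bool => (rf h x₀ M y a₁, rf h x₀ M y a₂)) ho
  rw [spl_qe] at key
  simp only [spl_w] at key
  refine key.trans (mul_le_mul_of_nonneg_right ?_ (by positivity))
  refine inv_anti₀ (by positivity) (pow_le_pow_of_le_one hc.le hc1 ?_)
  have := card_X (X := X) hM k
  omega

end mean

end Vale.Agent.P148.R2.H409
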