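import Vale.Agent.P148.R2.H409.Rot
import Vale.Agent.P148.R2.H959.CalPos
import Vale.Agent.P148.R2.H172.Sc3

/-!
# P148, row CAL: the numbering of the main cycle from a gate of the third arc

`Mrk.base` : a marked frame, the loop based at a gate `a₀` inside the arc `γ`: the closing chain from
`c j₁` (arc `γ + 1`) to `c i₁` (arc `γ + 2`) consists of the members `iy, …, ix - 1` of this numbering,
which are seen between the last gate of the arc `γ` and its first gate in the next round.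
-/

open Set Metric Function
open scoped Classical

namespace Vale.Agent.P148.R2.H409

open Vale.Agent.P148.R2.H258
open Vale.Agent.P148.R2.N (ms nc gateC cellC csq ms_pos)
open Vale.Agent.P148.R2.H566 (W0)
open Vale.Agent.P148.R2.H609 (TP piX)
open Vale.Agent.P148.R2.H172 (Frame)
open Vale.Agent.P148.R2.H251 (InArc cy gapL)
open Vale.Agent.P148.R2.H871 (per src0)
open Vale.Agent.P148.R2.H959 (Mrk ag bg)

variable {M : ℕ} {w : W0} {x₀ : w.X} {col : w.X → Bool} {F : Frame M w x₀ col}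
  {g₀ g₁ g₂ n s₁ s₂ : ℕ} {c : ℕ → w.D} {τ : ℕ → ℕ}

/-- The first member after a gate is seen before the second next gate. -/
theorem base_first (F : Frame M w x₀ col) (a : ℕ) (hnc : 4 ≤ nc M) :
    F.t a + F.bt a 0 < F.t (a + 2) := by
  have hP : (TP w x₀).Planar := H592.HullTri.planar258 _ _ _
  have hF := F.base_feet a
  have hL := F.base_loop a
  have hMn := F.base_main a
  obtain ⟨m, h1⟩ := hF.exists_lm hP (k := 1) le_rfl
  obtain ⟨k0, m0, h2, h3⟩ := hMn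
  have h4 := (TP w x₀).rel_trans ((TP w x₀).rel_symm h3) (hF.rel_lm h2 h1)
  obtain ⟨-, h5, h6, -, -⟩ := h1
  have hp : per (TP w x₀) col (F.ob a) = F.t (nc M) := F.per_ob a
  have e1 : F.tb a (1 + 1) = F.t (a + 2) - F.t a := rfl
  have h7 : F.t a ≤ F.t (a + 2) := F.lt.mono (by omega)
  have h8 : F.t (a + 2) ≤ F.t (a + nc M) := F.lt.mono (by omega)
  have h9 := F.t_add_nc a
  rw [e1] at h6
  obtain ⟨i, hi, hie⟩ := hL.all m (by rw [hp]; omega) h4
  have h10 : F.bt a 0 ≤ F.bt a i := by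
    rcases Nat.eq_zero_or_pos i with h | h
    · rw [h]
    · exact (hL.mono 0 i h hi).le
  omega

/-- **The closing chain in the numbering based in the third arc.** -/
theorem mrk_base (hm : Mrk F g₀ g₁ g₂ n s₁ s₂ c τ) (h01 : g₀ ≤ g₁) (h12 : g₁ ≤ g₂)
    (h20 : g₂ ≤ g₀ + nc M) {γ : Fin 3} {a₀ : ℕ} (ha : ag g₀ g₁ g₂ γ ≤ a₀)
    (hb : a₀ + 2 ≤ bg M g₀ g₁ g₂ γ) (hnc : 4 ≤ nc M) {j₁ i₁ : ℕ} (hj : InArc s₁ s₂ n (γ + 1) j₁)
    (hi : InArc s₁ s₂ n (γ + 2) i₁) :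
    F.bn a₀ = n ∧ ∃ iy ix, iy < ix ∧ ix < n ∧ F.bc a₀ iy = c j₁ ∧ F.bc a₀ ix = c i₁ ∧
      (∀ Θ : w.D → ℂ, ∑ k ∈ Finset.range (gapL n j₁ i₁), Θ (cy c n (j₁ + k)) =
        ∑ i ∈ Finset.Ico iy ix, Θ (F.bc a₀ i)) ∧
      F.t (bg M g₀ g₁ g₂ γ) ≤ F.t a₀ + F.bt a₀ iy ∧
      F.t a₀ + F.bt a₀ ix < F.t (ag g₀ g₁ g₂ γ + nc M) := by
  have hp1 := hm.pos1
  have h112 := hm.lt12
  have h2n := hm.lt2
  have hga : g₀ ≤ ag g₀ g₁ g₂ γ := by
    unfold ag; split_ifs <;> omega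
  have hbn : bg M g₀ g₁ g₂ γ ≤ g₀ + nc M := by
    unfold bg; split_ifs <;> omega
  have hL := F.base_loop a₀
  have hob : F.ob a₀ = ((TP w x₀).st col)^[F.t a₀ - F.t g₀] (F.ob g₀) := by
    have h1 : F.t g₀ ≤ F.t a₀ := F.lt.mono (by omega)
    change ((TP w x₀).st col)^[F.t a₀] F.o =
      ((TP w x₀).st col)^[F.t a₀ - F.t g₀] (((TP w x₀).st col)^[F.t g₀] F.o)
    rw [← iterate_add_apply, Nat.sub_add_cancel h1]
  have hloop : H659.Loop (TP w x₀) (piX w) w.O col (F.ob g₀) n c τ := hm.loop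
  have hper := F.per_ob g₀
  have hg0nc := F.t_add_nc g₀
  have hfirst := base_first F a₀ hnc
  have m1 : F.t g₀ ≤ F.t a₀ := F.lt.mono (by omega)
  have m2 : F.t (a₀ + 2) ≤ F.t (bg M g₀ g₁ g₂ γ) := F.lt.mono hb
  have m3 : F.t (bg M g₀ g₁ g₂ γ) ≤ F.t (g₀ + nc M) := F.lt.mono hbn
  rw [hob] at hL
  have hrel : (TP w x₀).Rel col (c 0) (F.bc a₀ 0) := by
    have h1 := (hm.mem (c 0)).2 ⟨0, hm.loop.ring.pos, rfl⟩
    exact (TP w x₀).rel_trans ((TP w x₀).rel_symm h1) (F.base_rel0 a₀)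
  obtain ⟨hnn, e, he, hce, -, htime⟩ := loop_rot_time hloop (s := F.t a₀ - F.t g₀)
    (by rw [hper]; omega) hL hrel (by rw [hper]; omega)
  rw [hper] at htime
  -- the base point is in the arc `γ`
  have he0 := htime 0 hm.loop.ring.pos
  rw [add_zero, Nat.mod_eq_of_lt he, if_pos he, add_zero] at he0
  have heγ : InArc s₁ s₂ n γ e := by
    rw [hm.arc_time he h01 h12 h20 γ]
    have m4 : F.t (ag g₀ g₁ g₂ γ) ≤ F.t a₀ := F.lt.mono ha
    omega
  have hαβγ : ((γ + 1 : Fin 3) = 1 ∧ (γ + 2 : Fin 3) = 2 ∧ γ = 0) ∨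
      ((γ + 1 : Fin 3) = 0 ∧ (γ + 2 : Fin 3) = 1 ∧ γ = 2) ∨
      ((γ + 1 : Fin 3) = 2 ∧ (γ + 2 : Fin 3) = 0 ∧ γ = 1) := by
    have key : ∀ γ : Fin 3, ((γ + 1 : Fin 3) = 1 ∧ (γ + 2 : Fin 3) = 2 ∧ γ = 0) ∨
      ((γ + 1 : Fin 3) = 0 ∧ (γ + 2 : Fin 3) = 1 ∧ γ = 2) ∨
      ((γ + 1 : Fin 3) = 2 ∧ (γ + 2 : Fin 3) = 0 ∧ γ = 1) := by decide
    exact key γ
  obtain ⟨iy, hy, hgap, hlt, hx⟩ := chain_base hp1 h112 h2n hαβγ heγ hj hi
  have hjn : j₁ < n := by rw [← hy]; exact Nat.mod_lt _ hm.loop.ring.pos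
  have hin : i₁ < n := by rw [← hx]; exact Nat.mod_lt _ hm.loop.ring.pos
  have hcy : ∀ k < n, F.bc a₀ k = c ((e + k) % n) := fun k hk => hce k hk
  refine ⟨hnn, iy, iy + gapL n j₁ i₁, by omega, hlt, ?_, ?_, fun Θ => ?_, ?_, ?_⟩
  · rw [hcy _ (by omega), hy]
  · rw [hcy _ (by omega), hx]
  · rw [sum_base hy Θ]
    refine Finset.sum_congr rfl fun i hi' => ?_
    rw [Finset.mem_Ico] at hi'
    rw [hcy i (by omega)]
    rfl
  · have h1 := htime iy (by omega)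
    rw [hy] at h1
    have h2 := (hm.arc_time hjn h01 h12 h20 (γ + 1)).1 hj
    have h3 := hm.cut1 j₁ hjn
    have h4 := hm.cut2 j₁ hjn
    have m5 : F.t g₀ ≤ F.t g₁ := F.lt.mono h01
    have m6 : F.t g₁ ≤ F.t g₂ := F.lt.mono h12
    have m7 : F.t g₂ ≤ F.t (g₀ + nc M) := F.lt.mono h20
    rcases hαβγ with ⟨a1, a2, a3⟩ | ⟨a1, a2, a3⟩ | ⟨a1, a2, a3⟩
    · -- `γ = 0`: wrapped
      rw [a1] at hj
      unfold InArc at hj heγ
      rw [a3] at heγ ⊢
      simp at hj heγ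
      have h5 : ¬ e + iy < n := by
        intro h6
        rw [Nat.mod_eq_of_lt h6] at hy
        omega
      rw [if_neg h5] at h1
      have e2 : bg M g₀ g₁ g₂ 0 = g₀ + nc M := by unfold bg; simp
      rw [e2]
      omega
    · -- `γ = 2`
      rw [a1] at hj h2
      unfold InArc at hj heγ
      rw [a3] at heγ ⊢
      simp at hj heγ
      have e2 : bg M g₀ g₁ g₂ 2 = g₂ := by unfold bg; simp
      have e3 : ag g₀ g₁ g₂ 0 = g₂ := by unfold ag; simp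
      rw [e3] at h2
      rw [e2]
      split_ifs at h1 <;> omega
    · -- `γ = 1`
      rw [a1] at hj h2
      unfold InArc at hj heγ
      rw [a3] at heγ ⊢
      simp at hj heγ
      have e2 : bg M g₀ g₁ g₂ 1 = g₁ := by unfold bg; simp
      have e3 : ag g₀ g₁ g₂ 2 = g₁ := by unfold ag; simp
      rw [e3] at h2
      rw [e2]
      split_ifs at h1 <;> omega
  · have h1 := htime (iy + gapL n j₁ i₁) (by omega)
    rw [hx] at h1
    have h2 := (hm.arc_time hin h01 h12 h20 (γ + 2)).1 hi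
    have m5 : F.t g₀ ≤ F.t g₁ := F.lt.mono h01
    have m6 : F.t g₁ ≤ F.t g₂ := F.lt.mono h12
    have m7 : F.t g₂ ≤ F.t (g₀ + nc M) := F.lt.mono h20
    rw [F.t_add_nc]
    rcases hαβγ with ⟨a1, a2, a3⟩ | ⟨a1, a2, a3⟩ | ⟨a1, a2, a3⟩
    · -- `γ = 0`
      rw [a2] at hi h2
      rw [a3]
      have e2 : ag g₀ g₁ g₂ 0 = g₂ := by unfold ag; simp
      have e3 : bg M g₀ g₁ g₂ 2 = g₂ := by unfold bg; simp
      rw [e3] at h2
      rw [e2]
      split_ifs at h1 <;> omega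
    · -- `γ = 2`
      rw [a2] at hi h2
      rw [a3]
      have e2 : ag g₀ g₁ g₂ 2 = g₁ := by unfold ag; simp
      have e3 : bg M g₀ g₁ g₂ 1 = g₁ := by unfold bg; simp
      rw [e3] at h2
      rw [e2]
      split_ifs at h1 <;> omega
    · -- `γ = 1`: not wrapped
      rw [a2] at hi h2
      rw [a3] at heγ ⊢
      unfold InArc at hi heγ
      simp at hi heγ
      have e2 : ag g₀ g₁ g₂ 1 = g₀ := by unfold ag; simp
      have h5 : e + (iy + gapL n j₁ i₁) < n := by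
        by_contra h6
        have h7 : (e + (iy + gapL n j₁ i₁)) % n = e + (iy + gapL n j₁ i₁) - n := by
          rw [Nat.mod_eq_sub_mod (by omega), Nat.mod_eq_of_lt (by omega)]
        rw [h7] at hx
        omega
      rw [if_pos h5] at h1
      rw [e2]
      have h8 := hm.loop.lt i₁ hin
      have h9 : per (TP w x₀) col (((TP w x₀).st col)^[F.t g₀] F.o) = F.t (nc M) := hper
      rw [h9] at h8
      omega

end Vale.Agent.P148.R2.H409
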