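import Vale.Agent.P148.R2.H126.Sum
import Vale.Agent.P148.R2.H251.W3g

/-!
# P148, row CAL: the windows of the closing chain of the frozen face

`c 0, …, c (n-1)` is the main cycle, `(t2, t1)` a near window and `F` the far sets of
`H126.Win`.  `Win.part` cuts the chain `c iy, …, c (ix-1)` into near parts and a part which lies in
one far set.
-/

namespace Vale.Agent.P148.R2.H409

open Function Vale.Agent.P148.R2.H258 Vale.Agent.P148.R2.H871 Vale.Agent.P148.R2.H400
  Vale.Agent.P148.R2.H532 Vale.Agent.P148.R2.H838 Vale.Agent.P148.R2.H203 Vale.Agent.P148.R2.H126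

variable {V V1 D : Type*} {T : Tri V D} {π : V → V1} {O : V1}
  {σ : V → Bool} {c : ℕ → D} {n : ℕ} {τ : ℕ → ℕ} {ι : Type*} {F : ι → Set V} {r : ι → V}
  {b1 b2 w : ι} {m1 m2 t2 t1 q : ℕ}

/-- The near part of a chain: indices in `[iy, j)` and in `[j', ix)`; the rest lies in `F b`. -/
structure Part (T : Tri V D) (F : ι → Set V) (r : ι → V) (c : ℕ → D) (τ : ℕ → ℕ) (t2 t1 : ℕ)
    (iy ix j j' : ℕ) (b : ι) : Prop where
  h1 : iy ≤ j
  h2 : j ≤ j'
  h3 : j' ≤ ix
  cov : ∀ i, iy ≤ i → i < ix → (i < j ∨ j' ≤ i) ∨ (τ i < t2 ∨ t1 ≤ τ i)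
  far : ∀ i, j ≤ i → i ≤ j' → j < j' → T.src (c i) ∈ F b
  one : ∀ i, iy ≤ i → i ≤ ix → ∀ i', T.src (c i) ∈ F i' → i' = b
  time : ∀ i, (iy ≤ i ∧ i < j) ∨ (j' ≤ i ∧ i < ix) → t2 ≤ τ i
  inj : ∀ i k, (iy ≤ i ∧ i < j) ∨ (j' ≤ i ∧ i ≤ ix) → (iy ≤ k ∧ k < j) ∨ (j' ≤ k ∧ k ≤ ix) →
    H532.col F r (T.src (c i)) = H532.col F r (T.src (c k)) → i = k
  ne : iy < ix → iy < j ∨ j' < ix

theorem Win.part (h : Win T π O σ c n τ F r b1 b2 w m1 m2 t2 t1 q) {iy ix : ℕ} (hqy : q ≤ iy)
    (hyx : iy ≤ ix) (hix : ix < n) (hN : Near T F b1 b2 c iy ∨ Near T F b1 b2 c ix) :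
    ∃ j j' b, (b = b1 ∨ b = b2) ∧ Part T F r c τ t2 t1 iy ix j j' b := by
  classical
  have hb0 : T.Bi σ (c 0) := (h.ring.mi 0 h.ring.pos).bi
  have hR := h.ring
  by_cases hNy : Near T F b1 b2 c iy
  · -- the landing vertex is near
    obtain ⟨j, hj1, hj2, hj3, hj4⟩ : ∃ j, iy ≤ j ∧ j ≤ ix ∧
        (∀ i, iy ≤ i → i < j → T.src (c i) ∉ F b1) ∧
        (j < ix → T.src (c j) ∈ F b1) := by
      by_cases hex : ∃ j, iy ≤ j ∧ j ≤ ix ∧ T.src (c j) ∈ F b1
      · refine ⟨Nat.find hex, (Nat.find_spec hex).1, (Nat.find_spec hex).2.1, ?_,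
          fun _ => (Nat.find_spec hex).2.2⟩
        intro i h1 h3 h4
        have := Nat.find_spec hex
        exact Nat.find_min hex h3 ⟨h1, by omega, h4⟩
      · refine ⟨ix, hyx, le_rfl, ?_, fun hh => absurd hh (lt_irrefl _)⟩
        intro i h1 h3 h4
        exact hex ⟨i, h1, h3.le, h4⟩
    have hn2 : ∀ i, iy ≤ i → i < n → T.src (c i) ∉ F b2 := by
      intro i h1 h3 h4
      exact hNy.2 (h.mono2 hqy h1 h3 h4)
    have hnear : ∀ i, iy ≤ i → i < j → Near T F b1 b2 c i := fun i h1 h3 =>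
      ⟨hj3 i h1 h3, hn2 i h1 (by omega)⟩
    have hfar : ∀ i, j ≤ i → i ≤ ix → (j < ix ∨ T.src (c ix) ∈ F b1) → T.src (c i) ∈ F b1 := by
      intro i h1 h3 h4
      rcases h4 with h4 | h4
      · exact h.mono1 (by omega) h1 (by omega) (hj4 h4)
      · have h5 : j = ix ∨ j < ix := by omega
        rcases h5 with h5 | h5
        · rw [show i = ix by omega]; exact h4
        · exact h.mono1 (by omega) h1 (by omega) (hj4 h5)
    have hor : ∀ i, iy ≤ i → i ≤ ix → ∀ i', T.src (c i) ∈ F i' → i' = b1 := by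
      intro i h1 h3 i' hi'
      rcases h.all i' with h4 | h4 | h4
      · exact h4
      · rw [h4] at hi'
        exact absurd hi' (hn2 i h1 (by omega))
      · exfalso
        by_cases h5 : T.src (c i) ∈ F b1
        · have h6 := h.coll.disj _ _ _ h5 hi'
          rw [h4] at h6
          have h9 := h.u0
          rw [← h6] at h9
          have h10 := h.black (Or.inl rfl) h9
          rw [T.col_tgt_iter σ] at h10
          exact hb0 h10.symm
        · exact (h.near_time (by omega) (by omega) ⟨h5, hn2 i h1 (by omega)⟩).2.2.2.2 _ hi'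
    refine ⟨j, ix, b1, Or.inl rfl, hj1, hj2, le_rfl, ?_, ?_, hor, ?_, ?_, ?_⟩
    · intro i h1 h3
      by_cases h4 : i < j
      · exact Or.inl (Or.inl h4)
      · right; right
        exact (h.src_mem1 (by omega) (by omega)).1 (hfar i (by omega) (by omega) (Or.inl (by omega)))
    · intro i h1 h3 h4
      exact hfar i h1 h3 (Or.inl h4)
    · rintro i (⟨h1, h3⟩ | ⟨h1, h3⟩)
      · exact (h.near_time (by omega) (by omega) (hnear i h1 h3)).2.2.1.le
      · omega
    · -- distinct sources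
      have key : ∀ i k, (iy ≤ i ∧ i < j) → ((iy ≤ k ∧ k < j) ∨ (ix ≤ k ∧ k ≤ ix)) →
          H532.col F r (T.src (c i)) = H532.col F r (T.src (c k)) → i = k := by
        intro i k hi hk hik
        have e1 := (h.near_time (by omega) (by omega) (hnear i hi.1 hi.2)).2.2.2.2
        rcases h.coll.eq_or hik with h4 | ⟨i', h4, -⟩
        · exact hR.inj i (by omega) k (by omega) h4
        · exact absurd h4 (e1 i')
      intro i k hi hk hik
      rcases hi with hi | hi
      · exact key i k hi hk hik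
      · rcases hk with hk | hk
        · exact (key k i hk (Or.inr hi) hik.symm).symm
        · omega
    · intro hlt
      left
      by_contra h4
      have h5 : j = iy := by omega
      exact hNy.1 (h5 ▸ hj4 (by omega))
  · -- the landing vertex is far, the start is near
    have hNx : Near T F b1 b2 c ix := hN.resolve_left hNy
    have hn1 : ∀ i, q ≤ i → i ≤ ix → T.src (c i) ∉ F b1 := by
      intro i h1 h3 h4
      exact hNx.1 (h.mono1 h1 h3 hix h4)
    have hy2 : T.src (c iy) ∈ F b2 := by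
      by_contra h4
      exact hNy ⟨hn1 iy hqy hyx, h4⟩
    obtain ⟨j, hj1, hj2, hj3, hj4⟩ : ∃ j, iy ≤ j ∧ j < ix ∧ T.src (c j) ∈ F b2 ∧
        ∀ i, j < i → i ≤ ix → T.src (c i) ∉ F b2 := by
      have hPi : (fun t => t ≤ ix ∧ T.src (c t) ∈ F b2) iy := ⟨hyx, hy2⟩
      have h3 := Nat.findGreatest_spec (P := fun t => t ≤ ix ∧ T.src (c t) ∈ F b2) hyx hPi
      refine ⟨Nat.findGreatest (fun t => t ≤ ix ∧ T.src (c t) ∈ F b2) ix,
        Nat.le_findGreatest hyx hPi, ?_, h3.2, ?_⟩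
      · rcases h3.1.lt_or_eq with h4 | h4
        · exact h4
        · exfalso
          apply hNx.2
          have := h3.2
          rwa [h4] at this
      · intro i h4 h5 h6
        exact Nat.findGreatest_is_greatest (P := fun t => t ≤ ix ∧ T.src (c t) ∈ F b2) h4 h5 ⟨h5, h6⟩
    have hnear : ∀ i, j < i → i ≤ ix → Near T F b1 b2 c i := fun i h1 h3 =>
      ⟨hn1 i (by omega) h3, hj4 i h1 h3⟩
    have hfar : ∀ i, q ≤ i → i ≤ j → T.src (c i) ∈ F b2 := fun i h1 h3 =>
      h.mono2 h1 h3 (by omega) hj3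
    have hor : ∀ i, q ≤ i → i ≤ ix → ∀ i', T.src (c i) ∈ F i' → i' = b2 := by
      intro i h1 h3 i' hi'
      rcases h.all i' with h4 | h4 | h4
      · rw [h4] at hi'
        exact absurd hi' (hn1 i h1 h3)
      · exact h4
      · exfalso
        by_cases h5 : i ≤ j
        · have h6 := h.coll.disj _ _ _ (hfar i h1 h5) hi'
          rw [h4] at h6
          have h9 := h.u0
          rw [← h6] at h9
          have h10 := h.black (Or.inr rfl) h9
          rw [T.col_tgt_iter σ] at h10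
          exact hb0 h10.symm
        · exact (h.near_time (by omega) (by omega) (hnear i (by omega) h3)).2.2.2.2 _ hi'
    have htime : ∀ i, j < i → i ≤ ix → t2 ≤ τ (i - 1) ∧ t2 < τ i ∧ τ i < t1 := by
      intro i h1 h3
      have := h.near_time (by omega) (by omega) (hnear i h1 h3)
      exact ⟨this.2.1, this.2.2.1, this.2.2.2.1⟩
    have hjt : t2 ≤ τ j := by
      have := (htime (j + 1) (by omega) (by omega)).1
      rwa [Nat.add_sub_cancel] at this
    refine ⟨iy, j, b2, Or.inr rfl, le_rfl, hj1, hj2.le, ?_, ?_, ?_, ?_, ?_, fun _ => Or.inr hj2⟩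
    · intro i h1 h3
      by_cases h4 : j ≤ i
      · exact Or.inl (Or.inr h4)
      · right; left
        have h5 := hfar (i + 1) (by omega) (by omega)
        rw [h.src_mem2 (by omega) (by omega)] at h5
        rcases h5 with h5 | h5
        · omega
        · rwa [Nat.add_sub_cancel] at h5
    · intro i h1 h3 _
      exact hfar i (by omega) h3
    · intro i h1 h3
      exact hor i (by omega) h3
    · rintro i (⟨h1, h3⟩ | ⟨h1, h3⟩)
      · omega
      · rcases h1.eq_or_lt with rfl | h4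
        · exact hjt
        · exact (htime i h4 (by omega)).2.1.le
    · have key : ∀ i k, (j ≤ i ∧ i ≤ ix) → (j ≤ k ∧ k ≤ ix) →
          H532.col F r (T.src (c i)) = H532.col F r (T.src (c k)) → i = k := by
        intro i k hi hk hik
        rcases h.coll.eq_or hik with h4 | ⟨i', h4, h5⟩
        · exact hR.inj i (by omega) k (by omega) h4
        · have e1 : i = j := by
            by_contra h6
            exact (h.near_time (by omega) (by omega) (hnear i (by omega)
              (by omega))).2.2.2.2 _ h4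
          have e2 : k = j := by
            by_contra h6
            exact (h.near_time (by omega) (by omega) (hnear k (by omega)
              (by omega))).2.2.2.2 _ h5
          omega
      intro i k hi hk hik
      exact key i k (by omega) (by omega) hik

/-! ### the class -/

theorem chain_cons {a b : ℕ} (h : a < b) :
    H659.chain c a b = c a :: H659.chain c (a + 1) b := by
  unfold H659.chain
  rw [show b - a = (b - (a + 1)) + 1 by omega, List.range_succ_eq_map, List.map_cons,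
    List.map_map]
  congr 1
  apply List.map_congr_left
  intro i _
  simp only [comp_apply, Nat.succ_eq_add_one]
  congr 1
  omega

/-- The list `f 1, …, f (m-1)`. -/
def pth (f : ℕ → D) (m : ℕ) : List D := (List.range (m - 1)).map fun i => f (i + 1)

theorem mem_pth {f : ℕ → D} {m : ℕ} {e : D} : e ∈ pth f m ↔ ∃ i, 1 ≤ i ∧ i < m ∧ e = f i := by
  unfold pth
  rw [List.mem_map]
  constructor
  · rintro ⟨i, hi, rfl⟩
    rw [List.mem_range] at hi
    exact ⟨i + 1, by omega, by omega, rfl⟩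
  · rintro ⟨i, h1, h2, rfl⟩
    exact ⟨i - 1, List.mem_range.2 (by omega), by rw [Nat.sub_add_cancel h1]⟩

theorem pth_cons {f : ℕ → D} {m : ℕ} (hm : 2 ≤ m) :
    pth f m = f 1 :: (List.range (m - 2)).map fun i => f (i + 2) := by
  unfold pth
  rw [show m - 1 = (m - 2) + 1 by omega, List.range_succ_eq_map, List.map_cons, List.map_map]
  rfl

theorem sum_pth {f : ℕ → D} {m : ℕ} (Θ : D → ℂ) :
    ((pth f m).map Θ).sum = ∑ i ∈ Finset.Ico 1 m, Θ (f i) := by
  unfold pth
  rw [List.map_map, Finset.sum_Ico_eq_sum_range]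
  induction m - 1 with
  | zero => simp
  | succ m ih =>
    rw [List.range_succ, List.map_append, List.sum_append, ih, Finset.sum_range_succ]
    simp [add_comm]

/-- The closed chain in the plane. -/
theorem chain_full {f : ℕ → D} {m iy ix : ℕ} (hm : 2 ≤ m)
    (hnext : ∀ i, 1 ≤ i → i + 1 < m → T.src (f (i + 1)) = T.apex (f i))
    (hx : T.src (f 1) = T.src (c ix)) (hy : T.apex (f (m - 1)) = T.src (c iy)) (hyx : iy < ix)
    (hcn : ∀ i, i + 1 ≤ ix → T.src (c (i + 1)) = T.apex (c i)) :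
    List.IsChain (fun a b => T.src b = T.apex a) (pth f m ++ H659.chain c iy ix ++ [f 1]) := by
  have h1 : List.IsChain (fun a b => T.src b = T.apex a) (pth f m ++ [c iy]) := by
    rw [pth_cons hm]
    refine H659.chain_range (R := fun a b => T.src b = T.apex a) ?_ ?_ ?_ ?_
    · intro h0
      have : m - 1 = 1 := by omega
      rw [← hy, this]
    · intro h0
      exact hnext 1 le_rfl (by omega)
    · intro i hi
      exact hnext (i + 2) (by omega) (by omega)
    · intro h0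
      rw [show m - 2 - 1 + 2 = m - 1 by omega, hy]
  have h2 : List.IsChain (fun a b => T.src b = T.apex a)
      ([c iy] ++ (H659.chain c (iy + 1) ix ++ [f 1])) := by
    rw [← List.append_assoc]
    unfold H659.chain
    refine H659.chain_range (R := fun a b => T.src b = T.apex a) ?_ ?_ ?_ ?_
    · intro h0
      rw [hx, show ix = iy + 1 by omega]
      exact hcn iy (by omega)
    · intro h0
      rw [add_zero]
      exact hcn iy (by omega)
    · intro i hi
      rw [← add_assoc]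
      exact hcn (iy + 1 + i) (by omega)
    · intro h0
      have := hcn (iy + 1 + (ix - (iy + 1) - 1)) (by omega)
      rw [show iy + 1 + (ix - (iy + 1) - 1) + 1 = ix by omega] at this
      rw [hx, this]
  have h3 := h1.append_overlap h2 (by simp)
  rw [chain_cons hyx]
  simpa only [List.append_assoc, List.cons_append, List.nil_append, List.singleton_append] using h3

theorem Part.col_ne {iy ix j j' : ℕ} {b : ι} (hF : Coll T F r) (h : Part T F r c τ t2 t1 iy ix j j' b)
    (hyx : iy < ix) : H532.col F r (T.src (c iy)) ≠ H532.col F r (T.src (c ix)) := by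
  intro h1
  have a1 := h.h1
  have a2 := h.h2
  have a3 := h.h3
  by_cases h2 : iy < j
  · have := h.inj iy ix (Or.inl ⟨le_rfl, h2⟩) (Or.inr ⟨a3, le_rfl⟩) h1
    omega
  · have h3 : iy = j := by omega
    have h4 : j' < ix := by
      rcases h.ne hyx with h4 | h4
      · omega
      · exact h4
    rcases a2.eq_or_lt with h5 | h5
    · have := h.inj iy ix (Or.inr ⟨by omega, by omega⟩) (Or.inr ⟨a3, le_rfl⟩) h1
      omega
    · have e1 := hF.col_mem (h.far j le_rfl a2 h5)
      have e2 := hF.col_mem (h.far j' a2 le_rfl h5)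
      rw [h3, e1, ← e2] at h1
      have := h.inj j' ix (Or.inr ⟨le_rfl, a3⟩) (Or.inr ⟨a3, le_rfl⟩) h1
      omega

/-- **The class of `f 1` in the collapsed triangulation**: the path and the near part of the
closing chain. -/
theorem class_part [Finite D] (hP : T.Planar) (hF : Coll T F r) {iy ix j j' : ℕ} {b : ι}
    (h : Part T F r c τ t2 t1 iy ix j j' b) (hyx : iy < ix)
    (hcn : ∀ i, i + 1 ≤ ix → T.src (c (i + 1)) = T.apex (c i))
    {f : ℕ → D} {m : ℕ} (hm : 2 ≤ m)
    (hnext : ∀ i, 1 ≤ i → i + 1 < m → T.src (f (i + 1)) = T.apex (f i))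
    (hinj : ∀ i k, 1 ≤ i → i < m → 1 ≤ k → k < m → T.src (f i) = T.src (f k) → i = k)
    (hfree : ∀ i, 2 ≤ i → i < m → (∀ i', T.src (f i) ∉ F i') ∧
      ∀ k, iy ≤ k → k ≤ ix → T.src (f i) ≠ T.src (c k))
    (hx : T.src (f 1) = T.src (c ix)) (hy : T.apex (f (m - 1)) = T.src (c iy))
    {σ2 : V → Bool}
    (hfm : ∀ i, 1 ≤ i → i < m → (tmap T (H532.col F r) hF.fib).Mi σ2 (f i))
    (hcm : ∀ i, (iy ≤ i ∧ i < j) ∨ (j' ≤ i ∧ i < ix) →
      (tmap T (H532.col F r) hF.fib).Mi σ2 (c i))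
    (hfw : ∀ i, 1 ≤ i → i < m → ∃ l, (tmap T (H532.col F r) hF.fib).Walk
      (H532.col F r (T.tgt (f 1))) (H532.col F r (T.tgt (f i))) l ∧ ∀ e ∈ l,
        σ2 (H532.col F r (T.src e)) = σ2 (H532.col F r (T.tgt (f 1))) ∧
        σ2 (H532.col F r (T.tgt e)) = σ2 (H532.col F r (T.tgt (f 1))))
    (hcw : ∀ i, (iy ≤ i ∧ i < j) ∨ (j' ≤ i ∧ i < ix) →
      ∃ l, (tmap T (H532.col F r) hF.fib).Walk
      (H532.col F r (T.tgt (f 1))) (H532.col F r (T.tgt (c i))) l ∧ ∀ e ∈ l,
        σ2 (H532.col F r (T.src e)) = σ2 (H532.col F r (T.tgt (f 1))) ∧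
        σ2 (H532.col F r (T.tgt e)) = σ2 (H532.col F r (T.tgt (f 1)))) :
    (pth f m ++ (H659.chain c iy j ++ H659.chain c j' ix)).Nodup ∧
    (tmap T (H532.col F r) hF.fib).apex (f 1) ≠ (tmap T (H532.col F r) hF.fib).src (f 1) ∧
    ∀ g, (tmap T (H532.col F r) hF.fib).Rel σ2 (f 1) g ↔
      g ∈ pth f m ++ (H659.chain c iy j ++ H659.chain c j' ix) := by
  have a1 := h.h1
  have a2 := h.h2
  have a3 := h.h3
  set T2 := tmap T (H532.col F r) hF.fib with hT2
  set L : List D := ((List.range (m - 2)).map fun i => f (i + 2)) ++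
    (H659.chain c iy j ++ H659.chain c j' ix) with hL
  have hdL : f 1 :: L = pth f m ++ (H659.chain c iy j ++ H659.chain c j' ix) := by
    rw [pth_cons hm, hL, List.cons_append]
  have hfull := chain_full hm hnext hx hy hyx hcn
  have hch : List.IsChain (fun a b => T2.src b = T2.apex a) (f 1 :: L ++ [f 1]) := by
    have h1 : List.IsChain (fun a b => T.src b = T.apex a)
        ((pth f m ++ H659.chain c iy j) ++ H659.chain c j j' ++ (H659.chain c j' ix ++ [f 1])) := by
      rw [chain_append (c := c) (a := iy) (b := j) (e := ix) a1 (by omega),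
        chain_append (c := c) (a := j) (b := j') (e := ix) a2 a3] at hfull
      simpa only [List.append_assoc] using hfull
    have h2 := chain_collapse (f := H532.col F r) (x := r b) h1 (by
      intro e he
      obtain ⟨i, h3, h4, rfl⟩ := H659.mem_chain.1 he
      refine ⟨hF.col_mem (h.far i h3 h4.le (by omega)), ?_⟩
      rw [← hcn i (by omega)]
      exact hF.col_mem (h.far (i + 1) (by omega) (by omega) (by omega)))
    rw [hdL]
    have e : pth f m ++ (H659.chain c iy j ++ H659.chain c j' ix) ++ [f 1] =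
        (pth f m ++ H659.chain c iy j) ++ (H659.chain c j' ix ++ [f 1]) := by
      simp only [List.append_assoc]
    rw [e]
    exact h2
  have hcolf : ∀ i, 2 ≤ i → i < m → ∀ v, H532.col F r (T.src (f i)) = H532.col F r v →
      T.src (f i) = v := by
    intro i h1 h2 v h3
    rcases hF.eq_or h3 with h4 | ⟨i', h4, -⟩
    · exact h4
    · exact absurd h4 ((hfree i h1 h2).1 i')
  have hn : ((f 1 :: L).map T2.src).Nodup := by
    rw [hdL, List.map_append, List.map_append, List.nodup_append, List.nodup_append]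
    have hcc : ∀ i k, (iy ≤ i ∧ i < j) ∨ (j' ≤ i ∧ i < ix) → (iy ≤ k ∧ k < j) ∨ (j' ≤ k ∧ k < ix) →
        T2.src (c i) = T2.src (c k) → i = k := by
      intro i k hi hk hik
      exact h.inj i k (by omega) (by omega) hik
    refine ⟨?_, ⟨?_, ?_, ?_⟩, ?_⟩
    · unfold pth
      rw [List.map_map, List.nodup_map_iff_inj_on List.nodup_range]
      intro i hi k hk hik
      rw [List.mem_range] at hi hk
      simp only [comp_apply] at hik
      have hik' : H532.col F r (T.src (f (i + 1))) = H532.col F r (T.src (f (k + 1))) := hik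
      rcases Nat.eq_zero_or_pos i with h3 | h3
      · rcases Nat.eq_zero_or_pos k with h4 | h4
        · omega
        · have := hcolf (k + 1) (by omega) (by omega) _ hik'.symm
          have := hinj _ _ (by omega) (by omega) (by omega) (by omega) this
          omega
      · have := hcolf (i + 1) (by omega) (by omega) _ hik'
        have := hinj _ _ (by omega) (by omega) (by omega) (by omega) this
        omega
    · unfold H659.chain
      rw [List.map_map, List.nodup_map_iff_inj_on List.nodup_range]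
      intro i hi k hk hik
      rw [List.mem_range] at hi hk
      have := hcc (iy + i) (iy + k) (by omega) (by omega) hik
      omega
    · unfold H659.chain
      rw [List.map_map, List.nodup_map_iff_inj_on List.nodup_range]
      intro i hi k hk hik
      rw [List.mem_range] at hi hk
      have := hcc (j' + i) (j' + k) (by omega) (by omega) hik
      omega
    · intro x hx' y hy' hxy
      rw [List.mem_map] at hx' hy'
      obtain ⟨e, he, rfl⟩ := hx'
      obtain ⟨e', he', rfl⟩ := hy'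
      obtain ⟨i, h3, h4, rfl⟩ := H659.mem_chain.1 he
      obtain ⟨k, h5, h6, rfl⟩ := H659.mem_chain.1 he'
      have := hcc i k (by omega) (by omega) hxy
      omega
    · intro x hx' y hy' hxy
      rw [List.mem_map] at hx'
      obtain ⟨e, he, rfl⟩ := hx'
      obtain ⟨i, h3, h4, rfl⟩ := mem_pth.1 he
      have hy2 : ∃ k, ((iy ≤ k ∧ k < j) ∨ (j' ≤ k ∧ k < ix)) ∧ y = T2.src (c k) := by
        rcases List.mem_append.1 hy' with h5 | h5 <;> rw [List.mem_map] at h5 <;>
          obtain ⟨e', he', rfl⟩ := h5 <;> obtain ⟨k, h5, h6, rfl⟩ := H659.mem_chain.1 he'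
        · exact ⟨k, Or.inl ⟨h5, h6⟩, rfl⟩
        · exact ⟨k, Or.inr ⟨h5, h6⟩, rfl⟩
      obtain ⟨k, hk, rfl⟩ := hy2
      have hxy' : H532.col F r (T.src (f i)) = H532.col F r (T.src (c k)) := hxy
      rcases h3.eq_or_lt with rfl | h5
      · rw [hx] at hxy'
        have := h.inj ix k (Or.inr ⟨a3, le_rfl⟩) (by omega) hxy'
        omega
      · exact (hfree i (by omega) h4).2 k (by omega) (by omega)
          (hcolf i (by omega) h4 _ hxy')
  have hnd : T2.apex (f 1) ≠ T2.src (f 1) := by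
    change H532.col F r (T.apex (f 1)) ≠ H532.col F r (T.src (f 1))
    rcases Nat.lt_or_ge 2 m with h3 | h3
    · rw [← hnext 1 le_rfl (by omega)]
      intro h4
      have := hinj _ _ (by omega) (by omega) (by omega) (by omega)
        (hcolf 2 le_rfl h3 _ h4)
      omega
    · have h4 : m - 1 = 1 := by omega
      rw [h4] at hy
      rw [hy, hx]
      exact h.col_ne hF hyx
  refine ⟨by rw [← hdL]; exact List.Nodup.of_map _ hn, hnd, fun g => ?_⟩
  have key := Tri.list_class (T := T2) (σ := σ2) (planar_tmap hP) hch ?_ hn hnd ?_ g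
  · rw [key, hdL]
  · intro e he
    rw [hdL, List.mem_append, List.mem_append] at he
    rcases he with he | he | he
    · obtain ⟨i, h3, h4, rfl⟩ := mem_pth.1 he
      exact hfm i h3 h4
    · obtain ⟨i, h3, h4, rfl⟩ := H659.mem_chain.1 he
      exact hcm i (Or.inl ⟨h3, h4⟩)
    · obtain ⟨i, h3, h4, rfl⟩ := H659.mem_chain.1 he
      exact hcm i (Or.inr ⟨h3, h4⟩)
  · intro e he
    rw [hdL, List.mem_append, List.mem_append] at he
    rcases he with he | he | he
    · obtain ⟨i, h3, h4, rfl⟩ := mem_pth.1 he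
      exact hfw i h3 h4
    · obtain ⟨i, h3, h4, rfl⟩ := H659.mem_chain.1 he
      exact hcw i (Or.inl ⟨h3, h4⟩)
    · obtain ⟨i, h3, h4, rfl⟩ := H659.mem_chain.1 he
      exact hcw i (Or.inr ⟨h3, h4⟩)

open Classical in
/-- The value of a class given by a list. -/
theorem cls_of_list {V' : Type*} {T' : Tri V' D} [Fintype D] {σ' : V' → Bool} {d : D} {L : List D}
    (hL : L.Nodup) (h : ∀ g, T'.Rel σ' d g ↔ g ∈ L) (Θ : D → ℂ) :
    T'.cls σ' d Θ = (L.map Θ).sum := by
  unfold Tri.cls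
  rw [← List.sum_toFinset Θ hL, ← Finset.sum_filter]
  refine Finset.sum_congr ?_ fun _ _ => rfl
  ext g
  rw [Finset.mem_filter, List.mem_toFinset, ← h g]
  constructor
  · rintro ⟨-, h1⟩
    exact T'.rel_symm h1
  · intro h1
    exact ⟨Finset.mem_univ _, T'.rel_symm h1⟩

/-- The part of a chain outside the near parts has value zero. -/
theorem sum_chain_part {iy ix j j' : ℕ} {b : ι} (h : Part T F r c τ t2 t1 iy ix j j' b) {Θ : D → ℂ}
    (hΘ : ∀ i, iy ≤ i → i < ix → (τ i < t2 ∨ t1 ≤ τ i) → Θ (c i) = 0) :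
    ((H659.chain c iy ix).map Θ).sum =
      ((H659.chain c iy j ++ H659.chain c j' ix).map Θ).sum := by
  have a1 := h.h1
  have a2 := h.h2
  have a3 := h.h3
  rw [chain_append (c := c) (a := iy) (b := j) (e := ix) a1 (by omega),
    chain_append (c := c) (a := j) (b := j') (e := ix) a2 a3]
  rw [List.map_append, List.map_append, List.map_append, List.sum_append, List.sum_append,
    List.sum_append]
  have hz : ((H659.chain c j j').map Θ).sum = 0 := by
    rw [H659.sum_chain]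
    apply Finset.sum_eq_zero
    intro i hi
    rw [Finset.mem_Ico] at hi
    rcases h.cov i (by omega) (by omega) with h7 | h7
    · omega
    · exact hΘ i (by omega) (by omega) h7
  rw [hz, zero_add]

/-! ### the frozen face -/

section face

variable {V3 : Type*} {T3 : Tri V3 D} {c0 : ℕ → D} {n0 s₁ s₂ : ℕ} {S : Fin 3 → Set V} {π3 : V → V3}
  {lab : Fin 3 → V3} {w0 : V → Bool} {σ3 : V3 → Bool}

open H251 H897 in
/-- **The windows of the closing chain of the frozen face**, one colouring. `c` is the main cycle,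
numbered from a point of the third arc; `c0` is the numbering of the three arcs. -/
theorem win3 [Fintype D] (hP : T.Planar) (hW : W3 T T3 π O w0 c0 n0 s₁ s₂ S π3 lab)
    (h : Win T π O σ c n τ F r b1 b2 w m1 m2 t2 t1 q) {o : D} (ho : T3.Mi σ3 o) {α β γ : Fin 3}
    (ha : T.src o ∈ S α) (hc : T.tgt o ∈ S γ) {m : ℕ} {f : ℕ → D} {j₁ i₁ : ℕ}
    (hp : Path3 T T3 π O c0 n0 s₁ s₂ σ3 o α β m f j₁ i₁) {N : ℕ}
    (hN1 : ∀ i, 1 ≤ i → i < m → ∃ k ≤ N, (T3.st σ3)^[k] (f 1) = f i)
    (hN2 : ∀ k, 0 < k → k ≤ N → π (T.src ((T3.st σ3)^[k] (f 1))) ≠ O)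
    (hN3 : ∀ k ≤ N, π (T.tgt ((T3.st σ3)^[k] (f 1))) ≠ O ∨
        ∃ i < n0, InArc s₁ s₂ n0 γ i ∧ T.tgt ((T3.st σ3)^[k] (f 1)) = T.src (c0 i))
    {iy ix : ℕ} (hqy : q ≤ iy) (hyx : iy < ix) (hix : ix < n)
    (hx : T.src (c0 i₁) = T.src (c ix)) (hy : T.src (c0 j₁) = T.src (c iy))
    (hN : Near T F b1 b2 c iy ∨ Near T F b1 b2 c ix)
    (hbk : σ (T.src (c 0)) = σ3 (lab α))
    {σ2 : V → Bool} (hfr : ∀ v, π v ≠ O → σ2 v = σ3 (π3 v))
    (h2 : ∀ v, π v = O → (∀ i, v ∉ F i) → σ2 v = σ v) (hb1 : σ2 (r b1) = σ3 (lab α))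
    (hb2 : σ2 (r b2) = σ3 (lab α)) (hw : σ2 (r w) = σ3 (lab γ))
    (hγ : ∀ i < n0, InArc s₁ s₂ n0 γ i →
      (∃ k ≤ N, T.tgt ((T3.st σ3)^[k] (f 1)) = T.src (c0 i)) → T.src (c0 i) ∈ F w)
    (hlink : ∃ p ∈ F w, Joined T (fun v => σ2 (H532.col F r v)) (σ3 (lab γ)) Set.univ p
      (T.tgt (f 1)))
    {Θ : D → ℂ} (hΘ : ∀ i, iy ≤ i → i < ix → (τ i < t2 ∨ t1 ≤ τ i) → Θ (c i) = 0) :
    (tmap T (H532.col F r) h.coll.fib).Mi σ2 (f 1) ∧
    (tmap T (H532.col F r) h.coll.fib).apex (f 1) ≠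
      (tmap T (H532.col F r) h.coll.fib).src (f 1) ∧
    (tmap T (H532.col F r) h.coll.fib).cls σ2 (f 1) Θ =
      ∑ i ∈ Finset.Ico 1 m, Θ (f i) + ∑ i ∈ Finset.Ico iy ix, Θ (c i) := by
  classical
  obtain ⟨j, j', b, hb, hpart⟩ := Win.part h hqy hyx.le hix hN
  have a1 := hpart.h1
  have a2 := hpart.h2
  have a3 := hpart.h3
  have h2m := hp.two
  have hR := h.ring
  have hF := h.coll
  have hnf : ∀ v, π v ≠ O → ∀ i, v ∉ F i := fun v hv i hi => hv (h.fibF i v hi)
  have hb0 : T.Bi σ (c 0) := (h.ring.mi 0 h.ring.pos).bi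
  have hγα : σ3 (lab γ) ≠ σ3 (lab α) := by
    have := ho.1
    rw [hW.src3 ha, hW.tgt3 hc] at this
    exact this.symm
  have bne : ∀ {x y z : Bool}, x ≠ z → y ≠ z → x = y := by decide
  have htw : σ (T.tgt (c 0)) = σ3 (lab γ) := by
    refine bne (z := σ3 (lab α)) ?_ hγα
    rw [← hbk]; exact hb0.symm
  have hrb : σ2 (r b) = σ3 (lab α) := by
    rcases hb with hb | hb
    · rw [hb]; exact hb1
    · rw [hb]; exact hb2
  set w' : V → Bool := fun v => σ2 (H532.col F r v) with hw'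
  have hw'free : ∀ v, π v ≠ O → w' v = σ3 (π3 v) := by
    intro v hv
    change σ2 (H532.col F r v) = _
    rw [col_not_mem (hnf v hv), hfr v hv]
  have hcsrc : ∀ i < n, σ (T.src (c i)) = σ3 (lab α) := by
    intro i hi
    obtain ⟨k, hk⟩ := hR.str i hi
    rw [← hk, T.col_src_iter σ, hbk]
  have hw'c : ∀ i, iy ≤ i → i ≤ ix → w' (T.src (c i)) = σ3 (lab α) := by
    intro i h1 h3
    change σ2 (H532.col F r _) = _
    by_cases hv : ∃ i', T.src (c i) ∈ F i'
    · obtain ⟨i', hi'⟩ := hv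
      rw [hF.col_mem hi', hpart.one i h1 h3 i' hi', hrb]
    · rw [col_not_mem (not_exists.1 hv), h2 _ (hR.fib (by omega)).1 (not_exists.1 hv),
        hcsrc i (by omega)]
  have hwhite : ∀ t, w' (T.tgt ((T.st σ)^[t] (c 0))) = σ3 (lab γ) := by
    intro t
    change σ2 (H532.col F r _) = _
    by_cases hv : ∃ i, T.tgt ((T.st σ)^[t] (c 0)) ∈ F i
    · obtain ⟨i, hi⟩ := hv
      rw [hF.col_mem hi, h.tgt_mem hi, hw]
    · rw [col_not_mem (not_exists.1 hv), h2 _ (hR.seen t).2 (not_exists.1 hv),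
        T.col_tgt_iter σ, htw]
  have htgt : ∀ i, i < n → w' (T.tgt (c i)) = σ3 (lab γ) := by
    intro i hi
    rw [← h.tm.it i hi]
    exact hwhite _
  -- the strand of `T3`
  have hw'x : w' (T.src (c0 i₁)) = σ3 (lab α) := by
    rw [hx]; exact hw'c ix hyx.le le_rfl
  have hag : AgreeTo T T3 w' σ3 (f 1) N := by
    refine hW.agree ha hc hp hN2 hN3 hw'free hw'x ?_
    intro i hi1 hi2 hi3
    change σ2 (H532.col F r _) = _
    rw [hF.col_mem (hγ i hi1 hi2 hi3), hw]
  have hbi1 : T3.Bi σ3 (f 1) := (hp.mi3 1 (by omega)).bi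
  have hc1 := T3.rel_col ((hp.rel (f 1)).2 ⟨1, by omega, rfl⟩)
  have hcolf : ∀ i, 1 ≤ i → i < m → w' (T.src (f i)) = σ3 (lab α) ∧
      w' (T.tgt (f i)) = σ3 (lab γ) := by
    intro i h1 h3
    obtain ⟨k, hk, hk'⟩ := hN1 i h1 h3
    have h4 := hag k hk
    rw [hk'] at h4
    have h5 := T3.rel_col ((hp.rel (f i)).2 ⟨i, h3, rfl⟩)
    rw [h4.1, h4.2, h5.1, h5.2, hW.src3 ha, hW.tgt3 hc]
    exact ⟨rfl, rfl⟩
  have hcolfa : ∀ i, 1 ≤ i → i < m → w' (T.apex (f i)) = σ3 (lab α) := by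
    intro i h1 h3
    rcases Nat.lt_or_ge (i + 1) m with h4 | h4
    · rw [← hp.next i h1 h4]
      exact (hcolf (i + 1) (by omega) h4).1
    · have h5 : i = m - 1 := by omega
      rw [h5, hp.stop, hy]
      exact hw'c iy le_rfl hyx.le
  have hmi2 : ∀ i, 1 ≤ i → i < m → (tmap T (H532.col F r) h.coll.fib).Mi σ2 (f i) := by
    intro i h1 h3
    obtain ⟨e1, e2⟩ := hcolf i h1 h3
    have e3 := hcolfa i h1 h3
    refine ⟨?_, ?_⟩
    · change w' (T.src (f i)) ≠ w' (T.tgt (f i))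
      rw [e1, e2]; exact hγα.symm
    · change w' (T.apex (f i)) = w' (T.src (f i))
      rw [e1, e3]
  have hmic : ∀ i, (iy ≤ i ∧ i < j) ∨ (j' ≤ i ∧ i < ix) →
      (tmap T (H532.col F r) h.coll.fib).Mi σ2 (c i) := by
    intro i hi
    have e1 := hw'c i (by omega) (by omega)
    have e2 := htgt i (by omega)
    have e3 := hw'c (i + 1) (by omega) (by omega)
    rw [hR.next i (by omega)] at e3
    refine ⟨?_, ?_⟩
    · change w' (T.src (c i)) ≠ w' (T.tgt (c i))
      rw [e1, e2]; exact hγα.symm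
    · change w' (T.apex (c i)) = w' (T.src (c i))
      rw [e1, e3]
  have hC2 : Contr T (tmap T (H532.col F r) h.coll.fib) (H532.col F r) := tmap_contr
  have e0 : w' (T.tgt (f 1)) = σ3 (lab γ) := (hcolf 1 le_rfl (by omega)).2
  -- walks
  have hfw : ∀ i, 1 ≤ i → i < m → ∃ l, (tmap T (H532.col F r) h.coll.fib).Walk
      (H532.col F r (T.tgt (f 1))) (H532.col F r (T.tgt (f i))) l ∧ ∀ e ∈ l,
        σ2 (H532.col F r (T.src e)) = σ2 (H532.col F r (T.tgt (f 1))) ∧
        σ2 (H532.col F r (T.tgt e)) = σ2 (H532.col F r (T.tgt (f 1))) := by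
    intro i h1 h3
    obtain ⟨k, hk, hk'⟩ := hN1 i h1 h3
    obtain ⟨-, -, l, h4, h5⟩ := hag.joined hW.contr hbi1 hk
    rw [hk'] at h4
    refine ⟨l, walk_contr hC2 h4, fun e he => ⟨(h5 e he).1.1, (h5 e he).2.1⟩⟩
  obtain ⟨p, hpF, -, hpc, lp, hlp, hlp2⟩ := hlink
  have hcw : ∀ i, (iy ≤ i ∧ i < j) ∨ (j' ≤ i ∧ i < ix) →
      ∃ l, (tmap T (H532.col F r) h.coll.fib).Walk
      (H532.col F r (T.tgt (f 1))) (H532.col F r (T.tgt (c i))) l ∧ ∀ e ∈ l,
        σ2 (H532.col F r (T.src e)) = σ2 (H532.col F r (T.tgt (f 1))) ∧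
        σ2 (H532.col F r (T.tgt e)) = σ2 (H532.col F r (T.tgt (f 1))) := by
    intro i hi
    have hbt : T.Bi σ ((T.st σ)^[t2] (c 0)) := (T.bi_iter t2).2 hb0
    have hl := T.rw_walk hbt (τ i - t2)
    rw [← iterate_add_apply, show τ i - t2 + t2 = τ i by have := hpart.time i hi; omega,
      h.tm.it i (by omega)] at hl
    have p1 := walk_contr hC2 hlp.reverse
    have p2 := walk_contr hC2 hl
    rw [hF.col_mem hpF] at p1
    rw [hF.col_mem h.u0] at p2
    refine ⟨_, p1.append p2, ?_⟩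
    intro e he
    change w' (T.src e) = w' (T.tgt (f 1)) ∧ w' (T.tgt e) = w' (T.tgt (f 1))
    rw [e0]
    rcases List.mem_append.1 he with h4 | h4
    · rw [List.mem_reverse, List.mem_map] at h4
      obtain ⟨e', he', rfl⟩ := h4
      rw [T.src_rev, T.tgt_rev]
      exact ⟨(hlp2 e' he').2.1, (hlp2 e' he').1.1⟩
    · obtain ⟨k, -, e1, e2⟩ := T.rw_mem hbt h4
      rw [← iterate_add_apply] at e1 e2
      rw [e1, e2]
      exact ⟨hwhite _, hwhite _⟩
  obtain ⟨hnd, hap, hrel⟩ := class_part hP h.coll hpart hyx (fun i hi => hR.next i (by omega)) h2m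
    hp.next hp.inj (fun i h1 h3 => ⟨hnf _ (hp.free i h1 h3), fun k hk1 hk2 h5 =>
      hp.free i h1 h3 (by rw [h5]; exact (hR.fib (by omega)).1)⟩)
    (hp.start.trans hx) (hp.stop.trans hy) hmi2 hmic hfw hcw
  refine ⟨hmi2 1 le_rfl (by omega), hap, ?_⟩
  rw [cls_of_list hnd hrel, List.map_append, List.sum_append, sum_pth,
    ← sum_chain_part hpart hΘ, H659.sum_chain]

/-- A class value is bounded by the energy of the good faces. -/
theorem cls_sq_le_tot [Fintype D] {V' : Type*} {T' : Tri V' D} (hP : T'.Planar) {σ' : V' → Bool}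
    {d : D} (hd : T'.Mi σ' d) (hg : T'.apex d ≠ T'.src d) (Θ : D → ℂ) :
    ‖T'.cls σ' d Θ‖ ^ 2 ≤ tot T' σ' (rs (fun e => T'.Good e) Θ) := by
  classical
  have e1 : T'.cls σ' d (rs (fun e => T'.Good e) Θ) = T'.cls σ' d Θ := by
    unfold Tri.cls
    refine Finset.sum_congr rfl fun e _ => ?_
    by_cases h : T'.Rel σ' e d
    · rw [if_pos h, if_pos h]
      unfold rs
      rw [if_pos (T'.good_of_rel hP (T'.rel_symm h) hg)]
    · rw [if_neg h, if_neg h]
  have h1 := sum_cls_le_tot (T := T') (σ := σ') {d} (fun e he => by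
      rw [Finset.mem_singleton] at he; rw [he]; exact hd)
    (fun e he e' he' _ => by
      rw [Finset.mem_singleton] at he he'; rw [he, he']) (rs (fun e => T'.Good e) Θ)
  rw [Finset.sum_singleton, e1] at h1
  exact h1.trans (tot_rs_le (sat_union _) _)

open H251 in
/-- **The windows of the closing chain of the frozen face**, energy form. -/
theorem win3_le [Fintype D] (hP : T.Planar) (hW : W3 T T3 π O w0 c0 n0 s₁ s₂ S π3 lab)
    (h : Win T π O σ c n τ F r b1 b2 w m1 m2 t2 t1 q) {o : D} (ho : T3.Mi σ3 o) {α β γ : Fin 3}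
    (ha : T.src o ∈ S α) (hc : T.tgt o ∈ S γ) {m : ℕ} {f : ℕ → D} {j₁ i₁ : ℕ}
    (hp : Path3 T T3 π O c0 n0 s₁ s₂ σ3 o α β m f j₁ i₁) {N : ℕ}
    (hN1 : ∀ i, 1 ≤ i → i < m → ∃ k ≤ N, (T3.st σ3)^[k] (f 1) = f i)
    (hN2 : ∀ k, 0 < k → k ≤ N → π (T.src ((T3.st σ3)^[k] (f 1))) ≠ O)
    (hN3 : ∀ k ≤ N, π (T.tgt ((T3.st σ3)^[k] (f 1))) ≠ O ∨
        ∃ i < n0, InArc s₁ s₂ n0 γ i ∧ T.tgt ((T3.st σ3)^[k] (f 1)) = T.src (c0 i))
    {iy ix : ℕ} (hqy : q ≤ iy) (hyx : iy < ix) (hix : ix < n)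
    (hx : T.src (c0 i₁) = T.src (c ix)) (hy : T.src (c0 j₁) = T.src (c iy))
    (hN : Near T F b1 b2 c iy ∨ Near T F b1 b2 c ix)
    (hbk : σ (T.src (c 0)) = σ3 (lab α))
    {σ2 : V → Bool} (hfr : ∀ v, π v ≠ O → σ2 v = σ3 (π3 v))
    (h2 : ∀ v, π v = O → (∀ i, v ∉ F i) → σ2 v = σ v) (hb1 : σ2 (r b1) = σ3 (lab α))
    (hb2 : σ2 (r b2) = σ3 (lab α)) (hw : σ2 (r w) = σ3 (lab γ))
    (hγ : ∀ i < n0, InArc s₁ s₂ n0 γ i →
      (∃ k ≤ N, T.tgt ((T3.st σ3)^[k] (f 1)) = T.src (c0 i)) → T.src (c0 i) ∈ F w)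
    (hlink : ∃ p ∈ F w, Joined T (fun v => σ2 (H532.col F r v)) (σ3 (lab γ)) Set.univ p
      (T.tgt (f 1)))
    {Θ : D → ℂ} (hΘ : ∀ i, iy ≤ i → i < ix → (τ i < t2 ∨ t1 ≤ τ i) → Θ (c i) = 0) :
    ‖∑ i ∈ Finset.Ico iy ix, Θ (c i)‖ ^ 2 ≤
      2 * tot (tmap T (H532.col F r) h.coll.fib) σ2
        (rs (fun e => (tmap T (H532.col F r) h.coll.fib).Good e) Θ) +
      2 * ‖∑ i ∈ Finset.Ico 1 m, Θ (f i)‖ ^ 2 := by
  obtain ⟨a1, a2, a3⟩ := win3 hP hW h ho ha hc hp hN1 hN2 hN3 hqy hyx hix hx hy hN hbk hfr h2 hb1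
    hb2 hw hγ hlink hΘ
  have h1 := cls_sq_le_tot (planar_tmap hP) a1 a2 Θ
  have e : ∑ i ∈ Finset.Ico iy ix, Θ (c i) =
      (tmap T (H532.col F r) h.coll.fib).cls σ2 (f 1) Θ + -(∑ i ∈ Finset.Ico 1 m, Θ (f i)) := by
    rw [a3]; ring
  rw [e]
  have h2' := sq_add_le ((tmap T (H532.col F r) h.coll.fib).cls σ2 (f 1) Θ)
    (-(∑ i ∈ Finset.Ico 1 m, Θ (f i)))
  rw [norm_neg] at h2'
  linarith

end face

end Vale.Agent.P148.R2.H409
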