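import Vale.Agent.P148.R2.H409.HvW
import Vale.Agent.P148.R2.H251.CalWn
import Vale.Agent.P148.R2.H112.CalT3
import Vale.Agent.P148.R2.H659.ValF

/-!
# P148, row CAL: the closing chain of the frozen face, one world

`hV_frame` : the mean over the fresh colours of the square of the closing chain plus `z` times the
difference of its ends is at most four times the deviation of the cell values from the slope `z`, plus
the windows `wnr`, plus small terms.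
-/

set_option linter.unusedSectionVars false

open Set Metric Function
open scoped Classical ENNReal

namespace Vale.Agent.P148.R2.H409

open Vale.Agent.P148.R2.H258 Vale.Agent.P148.R2.H659
open Vale.Agent.P148.R2.N (ms nc gateC cellC csq ms_pos)
open Vale.Agent.P148.R2.H592 (HullTri nbr idmap fib_id tail cr)
open Vale.Agent.P148.R2.H184 (Dt dt rt Wt cc)
open Vale.Agent.P148.R2.H203 (wt)
open Vale.Agent.P148.R2.H488 (cw hc cw_ne)
open Vale.Agent.P148.R2.H566 (W0)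
open Vale.Agent.P148.R2.H609 (TP piX)
open Vale.Agent.P148.R2.H172 (Frame)
open Vale.Agent.P148.R2.H251 (InArc W3 Path3 Three3 TC pi3 patt cy gapL nwx wnr nwx_nonneg sum_le_wnr
  th3 thP)
open Vale.Agent.P148.R2.H959 (reg Mrk ag bg)
open Vale.Agent.P148.R2.H871 (per)
open Vale.Agent.P148.R2.H532 (WX)
open Vale.Agent.P148.R2.H126 (NR rf)
open Vale.Agent.P148.R2.H112 (mkZ ThkE)
open Vale.Agent.P148.R2.H953 (qd CloW ex ex_nonneg ex_mono ex_smul)
open Vale.Agent.P148.R2.H291 (bR)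

section frame

variable {M : ℕ} {w : W0} {x₀ : w.X} {col : w.X → Bool} {F : Frame M w x₀ col}
  {g₀ g₁ g₂ n s₁ s₂ : ℕ} {c : ℕ → w.D} {τ : ℕ → ℕ}

theorem NR_eq_NX (X : Set ℂ) (M m k : ℕ) : NR M X (k - m) (k + m) = NX X M m k := by
  ext v
  constructor
  · rintro ⟨j, h1, h2, h3⟩
    exact ⟨j, by omega, h2, h3⟩
  · rintro ⟨j, h1, h2, h3⟩
    exact ⟨j, by omega, h2, h3⟩

/-- The support of the weight of a cell. -/
theorem supp_cell (hM : 0 < M) (hcc : ∀ k, ∀ q : w.D, tail q ∈ reg M k →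
      cr (dt q).1 (dt q).2.1 (dt q).2.2 ≠ 0 ∧ cc (dt q) ∈ csq (tail q) (ms M / 16))
    (Θ : Dt → ℂ) {a k : ℕ} (h1 : a + 1 ≤ k) (h2 : k + 2 ≤ a + nc M) (d : w.D) (u : ℕ)
    (hu : a ≤ u) (hu' : u < a + nc M) (hd : ((TP w x₀).src d).1 ∈ reg M u)
    (hne : wt w.hull (idmap w.X x₀) (fib_id w.X x₀) (cw (hc M k) Θ) d ≠ 0) :
    u ≤ k + 1 ∧ k ≤ u + 1 := by
  have h3 : cw (hc M k) Θ (dt d) ≠ 0 := by
    intro h0
    apply hne
    unfold wt
    rw [h0]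
    split_ifs <;> rfl
  have h4 : tail d ∈ reg M u := by
    have : ((TP w x₀).src d).1 = tail d := H871.src0 w.hull x₀ d
    rwa [this] at hd
  have h5 := (hcc u d h4).2
  have h6 := nr_of_hc (g := a) (j := u - a) (k := k - a) hM (by omega) (by omega)
    (by rw [show a + (u - a) = u by omega]; exact h4) h5
    (by rw [show a + (k - a) = k by omega]; exact (cw_ne h3).2.1)
  unfold Nr at h6
  omega

theorem ex_sum' {V ι : Type*} [Fintype V] (s : Finset ι) (f : ι → (V → Bool) → ℝ) :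
    (ex fun x => ∑ k ∈ s, f k x) = ∑ k ∈ s, ex (f k) := by
  unfold ex
  rw [Finset.sum_comm, Finset.sum_div]

theorem ex_add' {V : Type*} [Fintype V] (f g : (V → Bool) → ℝ) :
    (ex fun x => f x + g x) = ex f + ex g := by
  unfold ex
  rw [Finset.sum_add_distrib, add_div]

/-- The energy of the near window with the fresh colours `s`. -/
noncomputable def wxk (w : W0) [Fintype w.D] (x₀ : w.X) (M : ℕ) (Θ : Dt → ℂ) (k a₁ a₂ : ℕ)
    (col s : w.X → Bool) : ℝ :=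
  WX (TP w x₀) (Nat.card w.D) (NX w.X M 2 k)
    (rf w.hull x₀ M col a₁, rf w.hull x₀ M col a₂) col
    (wt w.hull (idmap w.X x₀) (fib_id w.X x₀) (cw (hc M k) Θ))
    (H953.glue (H126.Rs (TP w x₀) (Nat.card w.D) (NX w.X M 2 k) (NX w.X M 3 k)
      (rf w.hull x₀ M col a₁) col) col s)

/-- **The closing chain of the frozen face**, one world. -/
theorem hV_frame {O3 : Fin 3 → Set ℂ} {h3 : Three3 w.X w.B O3} [Fintype w.X] [Fintype w.D]
    [Fintype (H592.CV w.X O3)] (hM : 0 < M) (hcan : ∀ k, F.ob k = rf w.hull x₀ M col k)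
    (hm : Mrk F g₀ g₁ g₂ n s₁ s₂ c τ) (h01 : g₀ ≤ g₁) (h12 : g₁ ≤ g₂) (h20 : g₂ ≤ g₀ + nc M)
    (hblk : col ((TP w x₀).src F.o) = true)
    (hW : W3 (TP w x₀) (TC w.hull h3) (piX w) w.O col c n s₁ s₂
      (fun j => {v : w.X | v.1 ∈ O3 j}) (pi3 w.X O3) Sum.inl)
    (hcc : ∀ k, ∀ q : w.D, tail q ∈ reg M k →
      cr (dt q).1 (dt q).2.1 (dt q).2.2 ≠ 0 ∧ cc (dt q) ∈ csq (tail q) (ms M / 16))
    {κ : ℂ} (hκ : κ ^ 2 + κ + 1 = 0) {Θ : Dt → ℂ} (hΘ : ∀ d, Θ (rt d) = κ ^ 2 * Θ d) {E : ℝ}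
    (hE : ∀ k, ∑ d, ‖thP w.hull x₀ (cw (hc M k) Θ) d‖ ^ 2 ≤ E) {z : ℂ} {D : ℝ}
    {γ : Fin 3} (hlen : ag g₀ g₁ g₂ γ + 13 ≤ bg M g₀ g₁ g₂ γ)
    (hval : ∀ iy ix, iy < ix → ix < F.bn (ag g₀ g₁ g₂ γ + 4) →
      F.t (bg M g₀ g₁ g₂ γ) ≤ F.t (ag g₀ g₁ g₂ γ + 4) + F.bt (ag g₀ g₁ g₂ γ + 4) iy →
      F.t (ag g₀ g₁ g₂ γ + 4) + F.bt (ag g₀ g₁ g₂ γ + 4) ix < F.t (ag g₀ g₁ g₂ γ + nc M) →
      ‖∑ i ∈ Finset.Ico iy ix, thP w.hull x₀ Θ (F.bc (ag g₀ g₁ g₂ γ + 4) i) +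
        z * (((TP w x₀).src (F.bc (ag g₀ g₁ g₂ γ + 4) iy)).1 -
          ((TP w x₀).src (F.bc (ag g₀ g₁ g₂ γ + 4) ix)).1)‖ ^ 2 ≤
      4 * D + 4 * (‖z‖ ^ 2 * (24 * ms M) ^ 2) +
        12 * ∑ k ∈ Finset.Icc (bg M g₀ g₁ g₂ γ - 1) (ag g₀ g₁ g₂ γ + nc M),
          if NEk F (ag g₀ g₁ g₂ γ + 4) iy ix k then
            ‖∑ i ∈ Finset.Ico iy ix, thP w.hull x₀ (cw (hc M k) Θ)
              (F.bc (ag g₀ g₁ g₂ γ + 4) i)‖ ^ 2 else 0)
    (hD : 0 ≤ D) {Z Z' : Set w.X} {nr : w.X → w.X → Prop} {τ' : (w.X → Bool) → w.X → Bool}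
    (hZ : mkZ w M (ag g₀ g₁ g₂ γ) (bg M g₀ g₁ g₂ γ) (12 * ms M) ⊆ Z)
    (hZ' : mkZ w M (ag g₀ g₁ g₂ γ) (bg M g₀ g₁ g₂ γ) (12 * ms M) ⊆ Z')
    (J I : (w.X → Bool) → ℕ) (Gd : (w.X → Bool) → Prop)
    (hGd : ∀ s, Gd s → ∃ m f N, CloW w.hull x₀ h3 c n s₁ s₂ γ Z Z' nr τ' s m f (J s) (I s) N)
    {pos : w.X → ℂ} (hpos : ∀ u v, pos u - pos v = u.1 - v.1) :
    (ex fun s => if Gd s then ‖∑ k ∈ Finset.range (gapL n (J s) (I s)),
        thP w.hull x₀ Θ (cy c n (J s + k)) + z * (pos ((TP w x₀).src (c (J s))) -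
          pos ((TP w x₀).src (c (I s))))‖ ^ 2 else 0) ≤
      4 * D + 4 * (‖z‖ ^ 2 * (24 * ms M) ^ 2) +
        24 * (wnr w.hull x₀ M Θ g₀ g₁ g₂ col + nc M * E) := by
  have hn12 := H995.twelve_le_nc hM
  have hE0 : 0 ≤ E := (Finset.sum_nonneg fun _ _ => by positivity).trans (hE 0)
  set A := ag g₀ g₁ g₂ γ with hA
  set B := bg M g₀ g₁ g₂ γ with hB
  have hAB : A + nc M + 1 - (B - 1) ≤ nc M := by omega
  have hL : per (TP w x₀) col F.o ≤ Nat.card w.D := by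
    rw [Nat.card_eq_fintype_card]
    exact H126.per_le_card F
  set K0 : ℝ := 4 * D + 4 * (‖z‖ ^ 2 * (24 * ms M) ^ 2) with hK0
  have hK0p : 0 ≤ K0 := by positivity
  set W : ℕ → (w.X → Bool) → ℝ := fun k s => wxk w x₀ M Θ k (A + 6) (B - 6) col s with hWd
  set Cl : ℕ → (w.X → Bool) → ℝ := fun k s => ‖(TC w.hull h3).cls (patt w.X O3 γ s)
    (qd (TC w.hull h3) (c (s₁ - 1)) γ) (th3 w.hull h3 (c (s₁ - 1)) (cw (hc M k) Θ))‖ ^ 2 with hCl
  have hWn : ∀ k s, 0 ≤ W k s := fun k s => H532.WX_nonneg _ _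
  have hCn : ∀ k s, 0 ≤ Cl k s := fun k s => by positivity
  have key : ∀ s, (if Gd s then ‖∑ k ∈ Finset.range (gapL n (J s) (I s)),
        thP w.hull x₀ Θ (cy c n (J s + k)) + z * (pos ((TP w x₀).src (c (J s))) -
          pos ((TP w x₀).src (c (I s))))‖ ^ 2 else 0) ≤
      K0 + 24 * ∑ k ∈ Finset.Icc (B - 1) (A + nc M), (W k s + Cl k s) := by
    intro s
    have hnn : 0 ≤ ∑ k ∈ Finset.Icc (B - 1) (A + nc M), (W k s + Cl k s) :=
      Finset.sum_nonneg fun k _ => add_nonneg (hWn k s) (hCn k s)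
    by_cases hs : Gd s
    · rw [if_pos hs]
      obtain ⟨m, f, N, hC⟩ := hGd s hs
      obtain ⟨hbn, iy, ix, hyx, hix, hy, hx, hsum, hty, htx⟩ :=
        mrk_base hm h01 h12 h20 (γ := γ) (a₀ := A + 4) (by omega) (by omega) (by omega)
          hC.path.aj hC.path.ai
      have hix' : ix < F.bn (A + 4) := by rw [hbn]; exact hix
      rw [hsum (thP w.hull x₀ Θ), ← hy, ← hx, hpos]
      refine (hval iy ix hyx hix' hty htx).trans ?_
      have h1 : ∑ k ∈ Finset.Icc (B - 1) (A + nc M), (if NEk F (A + 4) iy ix k then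
            ‖∑ i ∈ Finset.Ico iy ix, thP w.hull x₀ (cw (hc M k) Θ) (F.bc (A + 4) i)‖ ^ 2
            else 0) ≤ 2 * ∑ k ∈ Finset.Icc (B - 1) (A + nc M), (W k s + Cl k s) := by
        rw [Finset.mul_sum]
        refine Finset.sum_le_sum fun k hk => ?_
        rw [Finset.mem_Icc] at hk
        by_cases hne : NEk F (A + 4) iy ix k
        · rw [if_pos hne]
          have h2 := hv_window hM hm h01 h12 h20 hblk hW hlen hZ hZ' hC hyx hix' hy hx hty htx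
            (k := k) (by omega) (by omega) hne (Φ := thP w.hull x₀ (cw (hc M k) Θ))
            (fun d u hu hu' hd hne' => supp_cell hM hcc Θ (a := A + 4) (k := k) (by omega)
              (by omega) d u hu hu' hd hne') hL
          rw [H112.sum_span hW _ hC.path, hcan, hcan, NR_eq_NX, NR_eq_NX] at h2
          rw [mul_add]
          exact h2
        · rw [if_neg hne]
          have := hWn k s
          have := hCn k s
          positivity
      linarith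
    · rw [if_neg hs]
      positivity
  refine (ex_mono key).trans ?_
  have e1 : (ex fun s => K0 + 24 * ∑ k ∈ Finset.Icc (B - 1) (A + nc M), (W k s + Cl k s)) =
      K0 + 24 * (∑ k ∈ Finset.Icc (B - 1) (A + nc M), ex (W k) +
        ∑ k ∈ Finset.Icc (B - 1) (A + nc M), ex (Cl k)) := by
    rw [ex_add', H953.ex_const, ex_smul, ex_sum']
    simp only [ex_add']
    rw [Finset.sum_add_distrib]
  rw [e1]
  have h5 : ∑ k ∈ Finset.Icc (B - 1) (A + nc M), ex (W k) ≤ wnr w.hull x₀ M Θ g₀ g₁ g₂ col :=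
    sum_le_wnr w.hull x₀ M Θ g₀ g₁ g₂ col γ (s := Finset.Icc (B - 1) (A + nc M)) le_rfl
  have h6 : ∑ k ∈ Finset.Icc (B - 1) (A + nc M), ex (Cl k) ≤ nc M * E := by
    have h7 : ∀ k ∈ Finset.Icc (B - 1) (A + nc M), ex (Cl k) ≤ E := fun k _ =>
      (H112.ex_cls_qd_le hW hκ (H112.cw_rot' hΘ M k) γ).trans (hE k)
    refine (Finset.sum_le_sum h7).trans ?_
    rw [Finset.sum_const, Nat.card_Icc, nsmul_eq_mul]
    refine mul_le_mul_of_nonneg_right ?_ hE0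
    exact_mod_cast hAB
  linarith

end frame

end Vale.Agent.P148.R2.H409
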