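import Vale.Agent.P148.R2.H409.HvV
import Vale.Agent.P148.R2.H409.Hv
import Vale.Agent.P148.R2.H659.RowVal
import Vale.Agent.P148.R2.H897.Cal8w
import Vale.Agent.P148.R2.H419.Col8
import Vale.Agent.P148.R2.H172.Sc6
import Vale.Agent.P148.R2.H897.CalV4

/-!
# P148, row CAL: the closing chain of the frozen face in the worlds of the scene

`hV_scene` : the third input of the inequality of one world, in the worlds of positive weight.
-/

set_option linter.unusedSectionVars false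

open Set Metric Function
open scoped Classical ENNReal

namespace Vale.Agent.P148.R2.H409

open Vale.Agent.P148.R2.H258 Vale.Agent.P148.R2.H659
open Vale.Agent.P148.R2.N (ms nc gateC cellC csq ms_pos)
open Vale.Agent.P148.R2.H592 (HullTri nbr idmap fib_id tail cr Fc CV)
open Vale.Agent.P148.R2.H184 (Dt dt rt Wt cc)
open Vale.Agent.P148.R2.H203 (wt)
open Vale.Agent.P148.R2.H488 (hc cw_ne)
open Vale.Agent.P148.R2.H566 (W0)
open Vale.Agent.P148.R2.H609 (TP piX)
open Vale.Agent.P148.R2.H172 (Frame GoodT fscOf mc xb)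
open Vale.Agent.P148.R2.H251 (W3 Three3 TC pi3 patt cy gapL wnr wnr_nonneg wnF wnF_eq thP)
open Vale.Agent.P148.R2.H959 (reg Mrk ag bg mk0 mk1 mk2 CalB)
open Vale.Agent.P148.R2.H112 (mkZ ThkE)
open Vale.Agent.P148.R2.H953 (CloW ex)
open Vale.Agent.P148.R2.H291 (bR site SiteOK CT)
open Vale.Agent.P148.R2.H995 (Zn calT)
open Vale.Agent.P148.R2.H897 (agc bgc)
open Vale.Agent.P148.R2.H598 (dv)
open _root_.P148 _root_.P148.H729

section scene

variable {c : ℝ} {M : ℕ} {T : Set Pt} (h : GoodT c M T) (hM : 0 < M)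
  {i : (site T 9 → Bool) × (site T 9 → Bool)} (hi : (fscOf hM h.site.hull).p i ≠ 0)
include hi

/-- The base edge of a frame has a black source. -/
theorem frame_src (F : Frame M ((fscOf hM h.site.hull).w i) ((fscOf hM h.site.hull).x₀ i)
      ((fscOf hM h.site.hull).col i)) :
    (fscOf hM h.site.hull).col i
      ((TP ((fscOf hM h.site.hull).w i) ((fscOf hM h.site.hull).x₀ i)).src F.o) = true := by
  let _ := H172.fX h.site.hull
  have hA := H172.fscOf_A0 hM h.site.hull hi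
  have hC := H678.col_site h.site (by norm_num) hM hA
  have h1 := (H419.frame_col (w := (fscOf hM h.site.hull).w i) hC
    (fun v => H678.cs_val ((fscOf hM h.site.hull).col i) v) F 0).1
  exact (H678.cs_val _ _).symm.trans h1

/-- **The third input of the inequality of one world of the scene.** -/
theorem hV_scene [Fintype (site T 9)] (hM' : 120 ≤ M)
    {F : Frame M ((fscOf hM h.site.hull).w i) ((fscOf hM h.site.hull).x₀ i)
      ((fscOf hM h.site.hull).col i)} (hF : F.Can) {s₁ s₂ : ℕ} {O3 : Fin 3 → Set ℂ}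
    {h3 : Three3 ((fscOf hM h.site.hull).w i).X ((fscOf hM h.site.hull).w i).B O3}
    (hB : CalB F 5 s₁ s₂ O3 h3)
    {κt : ℂ} {κ : ℝ} {Θ : Dt → ℂ} (hΘ : Wt κt κ Θ) {E : ℝ} (hE : ThkE T M Θ E)
    {ρ : ℝ} (hρ : 12 * ms M ≤ ρ) {nr : site T 9 → site T 9 → Prop} {wn : ℝ≥0∞}
    (hwn : 6 * (wnF (fscOf hM h.site.hull) Θ (mk0 M 5) (mk1 M 5) (mk2 M 5) i +
      ENNReal.ofReal (nc M * E)) ≤ wn) :
    ∀ (z : ℂ) (D Wn : ℝ), 0 ≤ D → 0 ≤ Wn →
      dv M z ((fscOf hM h.site.hull).cv Θ i) ≤ ENNReal.ofReal D →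
      wn ≤ ENNReal.ofReal Wn →
      ∀ (γ : Fin 3) (J K : (site T 9 → Bool) → ℕ) (Gd : (site T 9 → Bool) → Prop),
      (∀ s, Gd s → ∃ m f N, CloW ((fscOf hM h.site.hull).w i).hull
          ((fscOf hM h.site.hull).x₀ i) h3
          (F.bc (mk0 M 5)) (F.bn (mk0 M 5)) s₁ s₂ γ
          (Zn M (site T 9) (agc M γ) (bgc M γ) (12 * ms M))
          (Zn M (site T 9) (agc M γ) (bgc M γ) ρ) nr
          (calT M (site T 9) (agc M γ) (bgc M γ) i.1 i.2) s m f (J s) (K s) N) →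
      (H953.ex (V := site T 9) fun s => if Gd s then
        ‖∑ k ∈ Finset.range (gapL (F.bn (mk0 M 5)) (J s) (K s)),
        thP ((fscOf hM h.site.hull).w i).hull ((fscOf hM h.site.hull).x₀ i) Θ
          (cy (F.bc (mk0 M 5)) (F.bn (mk0 M 5)) (J s + k)) +
        z * (((((TP ((fscOf hM h.site.hull).w i) ((fscOf hM h.site.hull).x₀ i)).src
            (F.bc (mk0 M 5) (J s))).1 + (1 + Complex.I)) : ℂ) -
          (((TP ((fscOf hM h.site.hull).w i) ((fscOf hM h.site.hull).x₀ i)).src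
            (F.bc (mk0 M 5) (K s))).1 + (1 + Complex.I)))‖ ^ 2 else 0) ≤
        4 * D + 4 * Wn + 4 * (‖z‖ ^ 2 * (24 * ms M) ^ 2) := by
  intro z D Wn hD hWn hdv hwn2 γ J K Gd hGd
  have h0 := ms_pos hM
  let inst : Fintype ((fscOf hM h.site.hull).w i).X := ‹Fintype (site T 9)›
  let instC := Fintype.ofFinite (CV ((fscOf hM h.site.hull).w i).X O3)
  have h01 : mk0 M 5 + 8 ≤ mk1 M 5 := by unfold mk0 mk1; omega
  have h12 : mk1 M 5 + 8 ≤ mk2 M 5 := by unfold mk1 mk2; omega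
  have h20 : mk2 M 5 + 8 ≤ mk0 M 5 + nc M := by unfold mk0 mk2 nc; omega
  have hlen : ag (mk0 M 5) (mk1 M 5) (mk2 M 5) γ + 13 ≤
      bg M (mk0 M 5) (mk1 M 5) (mk2 M 5) γ := by
    fin_cases γ <;> simp [ag, bg, mk0, mk1, mk2, nc] <;> omega
  have hlen2 : bg M (mk0 M 5) (mk1 M 5) (mk2 M 5) γ + 2 ≤
      ag (mk0 M 5) (mk1 M 5) (mk2 M 5) γ + nc M := by
    fin_cases γ <;> simp [ag, bg, mk0, mk1, mk2, nc] <;> omega
  have hcc : ∀ k, ∀ q : ((fscOf hM h.site.hull).w i).D, tail q ∈ reg M k →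
      cr (dt q).1 (dt q).2.1 (dt q).2.2 ≠ 0 ∧ cc (dt q) ∈ csq (tail q) (ms M / 16) :=
    fun k q hq => site_cc h.site hM k q hq
  have hE' : ∀ k, ∑ d, ‖thP ((fscOf hM h.site.hull).w i).hull ((fscOf hM h.site.hull).x₀ i)
      (H488.cw (hc M k) Θ) d‖ ^ 2 ≤ E := by
    intro k
    exact (H910.sum_inst _ _ _).le.trans
      (hE ((fscOf hM h.site.hull).w i) rfl rfl ((fscOf hM h.site.hull).x₀ i) k)
  have hID : CellID F Θ := cellID h.site (by omega) hM hi F hF
  have hdv' : dv M z (cval M ((fscOf hM h.site.hull).w i) ((fscOf hM h.site.hull).col i) Θ) ≤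
      ENNReal.ofReal D := by
    have e1 : cval M ((fscOf hM h.site.hull).w i) ((fscOf hM h.site.hull).col i) Θ =
        (fscOf hM h.site.hull).cv Θ i := by
      funext k
      exact ((fscOf hM h.site.hull).cv_eq Θ i k).symm
    rw [e1]
    exact hdv
  have key := hV_frame (F := F) (h3 := h3) hM hF hB.mrk (by omega) (by omega) (by omega)
    (frame_src h hM hi F) hB.w3 hcc hΘ.tau hΘ.rot hE' (z := z) (D := D) (γ := γ) hlen
    (fun iy ix hyx hix hty htx => hv_val F hM hcc hID (by omega) (by omega) hyx hix hty htx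
      hD hdv') hD (Z := Zn M (site T 9) (agc M γ) (bgc M γ) (12 * ms M))
      (Z' := Zn M (site T 9) (agc M γ) (bgc M γ) ρ) (nr := nr)
      (τ' := calT M (site T 9) (agc M γ) (bgc M γ) i.1 i.2)
      (fun v hv => hv) (fun v hv => H897.Zn_mono hρ hv) J K Gd hGd
      (pos := fun v => v.1 + (1 + Complex.I)) (fun u v => by ring)
  refine key.trans ?_
  have h5 : 6 * (wnr ((fscOf hM h.site.hull).w i).hull ((fscOf hM h.site.hull).x₀ i) M Θ
      (mk0 M 5) (mk1 M 5) (mk2 M 5) ((fscOf hM h.site.hull).col i) + nc M * E) ≤ Wn := by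
    have hE0 : 0 ≤ E := (Finset.sum_nonneg fun _ _ => by positivity).trans (hE' 0)
    rw [← ENNReal.ofReal_le_ofReal_iff hWn]
    refine le_trans (le_of_eq ?_) (hwn.trans hwn2)
    have e7 := @wnF_eq M (fscOf hM h.site.hull) Θ (mk0 M 5) (mk1 M 5) (mk2 M 5) i inst
      (inferInstanceAs (Fintype ((fscOf hM h.site.hull).w i).D))
    rw [e7, ENNReal.ofReal_mul (by norm_num), ENNReal.ofReal_add (wnr_nonneg _ _ _ _ _ _ _ _)
      (by positivity)]
    norm_num
  linarith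

/-- The same, with the window term `wnV` of helper897. -/
theorem hV_wnV [Fintype (site T 9)] (hM' : 120 ≤ M)
    {F : Frame M ((fscOf hM h.site.hull).w i) ((fscOf hM h.site.hull).x₀ i)
      ((fscOf hM h.site.hull).col i)} (hF : F.Can) {s₁ s₂ : ℕ} {O3 : Fin 3 → Set ℂ}
    {h3 : Three3 ((fscOf hM h.site.hull).w i).X ((fscOf hM h.site.hull).w i).B O3}
    (hB : CalB F 5 s₁ s₂ O3 h3)
    {κt : ℂ} {κ : ℝ} {Θ : Dt → ℂ} (hΘ : Wt κt κ Θ) (hE : ThkE T M Θ (CT κ 2 * ms M ^ 2))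
    {ρ : ℝ} (hρ : 12 * ms M ≤ ρ) {nr : site T 9 → site T 9 → Prop} :
    ∀ (z : ℂ) (D Wn : ℝ), 0 ≤ D → 0 ≤ Wn →
      dv M z ((fscOf hM h.site.hull).cv Θ i) ≤ ENNReal.ofReal D →
      H897.wnV (fscOf hM h.site.hull) κ Θ i ≤ ENNReal.ofReal Wn →
      ∀ (γ : Fin 3) (J K : (site T 9 → Bool) → ℕ) (Gd : (site T 9 → Bool) → Prop),
      (∀ s, Gd s → ∃ m f N, CloW ((fscOf hM h.site.hull).w i).hull
          ((fscOf hM h.site.hull).x₀ i) h3
          (F.bc (mk0 M 5)) (F.bn (mk0 M 5)) s₁ s₂ γ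
          (Zn M (site T 9) (agc M γ) (bgc M γ) (12 * ms M))
          (Zn M (site T 9) (agc M γ) (bgc M γ) ρ) nr
          (calT M (site T 9) (agc M γ) (bgc M γ) i.1 i.2) s m f (J s) (K s) N) →
      (H953.ex (V := site T 9) fun s => if Gd s then
        ‖∑ k ∈ Finset.range (gapL (F.bn (mk0 M 5)) (J s) (K s)),
        thP ((fscOf hM h.site.hull).w i).hull ((fscOf hM h.site.hull).x₀ i) Θ
          (cy (F.bc (mk0 M 5)) (F.bn (mk0 M 5)) (J s + k)) +
        z * (((((TP ((fscOf hM h.site.hull).w i) ((fscOf hM h.site.hull).x₀ i)).src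
            (F.bc (mk0 M 5) (J s))).1 + (1 + Complex.I)) : ℂ) -
          (((TP ((fscOf hM h.site.hull).w i) ((fscOf hM h.site.hull).x₀ i)).src
            (F.bc (mk0 M 5) (K s))).1 + (1 + Complex.I)))‖ ^ 2 else 0) ≤
        4 * D + 4 * Wn + 4 * (‖z‖ ^ 2 * (24 * ms M) ^ 2) := by
  refine hV_scene h hM hi hM' hF hB hΘ hE hρ ?_
  unfold H897.wnV
  rw [mul_add, ENNReal.ofReal_mul (p := 6) (by norm_num)]
  norm_num

end scene

end Vale.Agent.P148.R2.H409
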