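import Vale.Agent.P148.R2.H409.HvW
import Vale.Agent.P148.R2.H659.ValF
import Vale.Agent.P148.R2.H598.Lln4

/-!
# P148, row CAL: the value of the closing chain of the frozen face

`hv_val` : the closing chain plus `z` times the difference of its ends, in terms of the deviation of the
cell values from the slope `z` and of the parts of the cells next to the two ends.
-/

set_option linter.unusedSectionVars false

open Set Metric Function
open scoped Classical ENNReal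

namespace Vale.Agent.P148.R2.H409

open Vale.Agent.P148.R2.H258 Vale.Agent.P148.R2.H659
open Vale.Agent.P148.R2.N (ms nc gateC cellC csq ms_pos)
open Vale.Agent.P148.R2.H592 (idmap fib_id tail cr)
open Vale.Agent.P148.R2.H184 (Dt dt cc)
open Vale.Agent.P148.R2.H203 (wt)
open Vale.Agent.P148.R2.H488 (cw hc cw_ne)
open Vale.Agent.P148.R2.H566 (W0)
open Vale.Agent.P148.R2.H609 (TP piX)
open Vale.Agent.P148.R2.H172 (Frame)
open Vale.Agent.P148.R2.H959 (reg)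
open Vale.Agent.P148.R2.H871 (per sideSum)
open Vale.Agent.P148.R2.H598 (dv le_dv)
open Vale.Agent.P148.R2.H504 (arcSum)

variable {M : ℕ} {w : W0} {x₀ : w.X} {col : w.X → Bool}

theorem gateC_mod (M k : ℕ) : gateC M (k % nc M) = gateC M k := by
  have h := Nat.mod_add_div k (nc M)
  conv_rhs => rw [← h]
  induction k / nc M with
  | zero => rw [mul_zero, add_zero]
  | succ n ih => rw [Nat.mul_succ, ← add_assoc, N.gateC_add_nc, ← ih]

theorem sq3 (a b c : ℂ) : ‖a + b + c‖ ^ 2 ≤ 4 * ‖a‖ ^ 2 + 4 * ‖b‖ ^ 2 + 2 * ‖c‖ ^ 2 := by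
  have h1 : ‖a + b + c‖ ≤ ‖a‖ + ‖b‖ + ‖c‖ := norm_add₃_le
  have h2 : ‖a + b + c‖ ^ 2 ≤ (‖a‖ + ‖b‖ + ‖c‖) ^ 2 := by gcongr
  nlinarith [sq_nonneg (‖a‖ + ‖b‖ - ‖c‖), sq_nonneg (‖a‖ - ‖b‖)]

/-- **The value of the closing chain.** -/
theorem hv_val (F : Frame M w x₀ col) (hM : 0 < M) {Θ : Dt → ℂ}
    (hcc : ∀ k, ∀ q : w.D, tail q ∈ reg M k →
      cr (dt q).1 (dt q).2.1 (dt q).2.2 ≠ 0 ∧ cc (dt q) ∈ csq (tail q) (ms M / 16))
    (hID : CellID F Θ) {a₀ b₁ e₁ iy ix : ℕ} (h1 : a₀ + 2 ≤ b₁) (h2 : e₁ + 2 ≤ a₀ + nc M)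
    (hyx : iy < ix) (hix : ix < F.bn a₀) (hty : F.t b₁ ≤ F.t a₀ + F.bt a₀ iy)
    (htx : F.t a₀ + F.bt a₀ ix < F.t e₁) {z : ℂ} {D : ℝ} (hD : 0 ≤ D)
    (hdv : dv M z (cval M w col Θ) ≤ ENNReal.ofReal D) :
    ‖∑ i ∈ Finset.Ico iy ix, wt w.hull (idmap w.X x₀) (fib_id w.X x₀) Θ (F.bc a₀ i) +
        z * (((TP w x₀).src (F.bc a₀ iy)).1 - ((TP w x₀).src (F.bc a₀ ix)).1)‖ ^ 2 ≤
      4 * D + 4 * (‖z‖ ^ 2 * (24 * ms M) ^ 2) +
        12 * ∑ k ∈ Finset.Icc (b₁ - 1) e₁, if NEk F a₀ iy ix k then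
          ‖∑ i ∈ Finset.Ico iy ix, wt w.hull (idmap w.X x₀) (fib_id w.X x₀) (cw (hc M k) Θ)
            (F.bc a₀ i)‖ ^ 2 else 0 := by
  have hn : 12 ≤ nc M := by unfold nc; omega
  have h0 := ms_pos hM
  have hP : (TP w x₀).Planar := H592.HullTri.planar258 _ _ _
  have hf := F.base_feet a₀
  have hl := F.base_loop a₀
  obtain ⟨p, hp1, hp2⟩ := hf.loc (F.bt a₀ iy)
  obtain ⟨q, hq1, hq2⟩ := hf.loc (F.bt a₀ ix)
  have hτ := hl.mono iy ix hyx hix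
  have mu : ∀ u, F.t a₀ ≤ F.t (a₀ + u) := fun u => F.lt.mono (by omega)
  have htb : ∀ u, F.tb a₀ u = F.t (a₀ + u) - F.t a₀ := fun u => rfl
  have hp1' : F.t (a₀ + p) ≤ F.t a₀ + F.bt a₀ iy := by
    have := mu p; rw [htb] at hp1; omega
  have hp2' : F.t a₀ + F.bt a₀ iy < F.t (a₀ + (p + 1)) := by
    have := mu (p + 1); rw [htb] at hp2; omega
  have hq1' : F.t (a₀ + q) ≤ F.t a₀ + F.bt a₀ ix := by
    have := mu q; rw [htb] at hq1; omega
  have hq2' : F.t a₀ + F.bt a₀ ix < F.t (a₀ + (q + 1)) := by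
    have := mu (q + 1); rw [htb] at hq2; omega
  have hbp : b₁ < a₀ + (p + 1) := F.lt.lt_iff.1 (by omega)
  have hqe : a₀ + q < e₁ := F.lt.lt_iff.1 (by omega)
  have hpq : a₀ + p < a₀ + (q + 1) := F.lt.lt_iff.1 (by omega)
  have hval := hl.value hP hf (F.base_main a₀) (by omega)
    (Θ := wt w.hull (idmap w.X x₀) (fib_id w.X x₀) Θ)
    (ϑ := fun k => wt w.hull (idmap w.X x₀) (fib_id w.X x₀) (cw (hc M (a₀ + k)) Θ)) hyx.le hix
    hp1 hp2 hq1 hq2 (fun m hm => base_sum F hM hcc a₀ m hm)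
    (fun k hk j hj m h3 h4 hne => base_supp F hM hcc a₀ k hk j hj m h3 h4 hne)
  rw [hval]
  -- positions of the ends
  have hxy : ((TP w x₀).src (F.bc a₀ iy)).1 ∈ reg M (a₀ + p) := by
    have h3 := base_seen F a₀ p (F.bt a₀ iy) hp1 hp2
    rw [hl.hit iy (by omega)] at h3
    rwa [H871.src0 w.hull x₀]
  have hxx : ((TP w x₀).src (F.bc a₀ ix)).1 ∈ reg M (a₀ + q) := by
    have h3 := base_seen F a₀ q (F.bt a₀ ix) hq1 hq2
    rw [hl.hit ix hix] at h3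
    rwa [H871.src0 w.hull x₀]
  set xy := ((TP w x₀).src (F.bc a₀ iy)).1 with hxy'
  set xx := ((TP w x₀).src (F.bc a₀ ix)).1 with hxx'
  set S := ∑ k ∈ Finset.Ico (p + 2) (q - 1),
      sideSum (TP w x₀) col (F.ob a₀) (F.tb a₀ (k - 2)) (F.tb a₀ (k + 3))
        (wt w.hull (idmap w.X x₀) (fib_id w.X x₀) (cw (hc M (a₀ + k)) Θ)) with hS
  set W := ∑ k ∈ ends (nc M) p q, ∑ i ∈ Finset.Ico iy ix,
      wt w.hull (idmap w.X x₀) (fib_id w.X x₀) (cw (hc M (a₀ + k)) Θ) (F.bc a₀ i) with hWd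
  -- the end cells
  have hW : ‖W‖ ^ 2 ≤ 6 * ∑ k ∈ Finset.Icc (b₁ - 1) e₁, if NEk F a₀ iy ix k then
          ‖∑ i ∈ Finset.Ico iy ix, wt w.hull (idmap w.X x₀) (fib_id w.X x₀) (cw (hc M k) Θ)
            (F.bc a₀ i)‖ ^ 2 else 0 := by
    set g : ℕ → ℝ := fun k => if NEk F a₀ iy ix k then
          ‖∑ i ∈ Finset.Ico iy ix, wt w.hull (idmap w.X x₀) (fib_id w.X x₀) (cw (hc M k) Θ)
            (F.bc a₀ i)‖ ^ 2 else 0 with hg
    have hg0 : ∀ k, 0 ≤ g k := by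
      intro k
      simp only [hg]
      split_ifs <;> positivity
    have hmem : ∀ k ∈ ends (nc M) p q, NEk F a₀ iy ix (a₀ + k) ∧ b₁ - 1 ≤ a₀ + k ∧
        a₀ + k ≤ e₁ := by
      intro k hk
      unfold ends at hk
      rw [Finset.mem_filter, Finset.mem_range] at hk
      obtain ⟨hk1, hk2, -⟩ := hk
      unfold Nr at hk2
      rcases hk2 with hk2 | hk2
      · exact ⟨⟨iy, Or.inl rfl, a₀ + p, hp1', hp2', by omega, by omega⟩, by omega, by omega⟩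
      · exact ⟨⟨ix, Or.inr rfl, a₀ + q, hq1', hq2', by omega, by omega⟩, by omega, by omega⟩
    have h3 : ‖W‖ ≤ ∑ k ∈ ends (nc M) p q, ‖∑ i ∈ Finset.Ico iy ix,
        wt w.hull (idmap w.X x₀) (fib_id w.X x₀) (cw (hc M (a₀ + k)) Θ) (F.bc a₀ i)‖ :=
      norm_sum_le _ _
    have h4 : ‖W‖ ^ 2 ≤ (∑ k ∈ ends (nc M) p q, ‖∑ i ∈ Finset.Ico iy ix,
        wt w.hull (idmap w.X x₀) (fib_id w.X x₀) (cw (hc M (a₀ + k)) Θ) (F.bc a₀ i)‖) ^ 2 := by
      gcongr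
    have h5 : (∑ k ∈ ends (nc M) p q, ‖∑ i ∈ Finset.Ico iy ix,
        wt w.hull (idmap w.X x₀) (fib_id w.X x₀) (cw (hc M (a₀ + k)) Θ) (F.bc a₀ i)‖) ^ 2 ≤
        ((ends (nc M) p q).card : ℝ) * ∑ k ∈ ends (nc M) p q, ‖∑ i ∈ Finset.Ico iy ix,
        wt w.hull (idmap w.X x₀) (fib_id w.X x₀) (cw (hc M (a₀ + k)) Θ) (F.bc a₀ i)‖ ^ 2 :=
      sq_sum_le_card_mul_sum_sq
    have h6 : ((ends (nc M) p q).card : ℝ) ≤ 6 := by exact_mod_cast card_ends (nc M) p q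
    have h7 : ∑ k ∈ ends (nc M) p q, ‖∑ i ∈ Finset.Ico iy ix,
        wt w.hull (idmap w.X x₀) (fib_id w.X x₀) (cw (hc M (a₀ + k)) Θ) (F.bc a₀ i)‖ ^ 2 =
        ∑ k ∈ ends (nc M) p q, g (a₀ + k) := by
      refine Finset.sum_congr rfl fun k hk => ?_
      simp only [hg]
      rw [if_pos (hmem k hk).1]
    have h8 : ∑ k ∈ ends (nc M) p q, g (a₀ + k) =
        ∑ l ∈ (ends (nc M) p q).image (fun k => a₀ + k), g l := by
      rw [Finset.sum_image]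
      intro a _ b _ hab
      simpa using hab
    have h9 : ∑ l ∈ (ends (nc M) p q).image (fun k => a₀ + k), g l ≤
        ∑ l ∈ Finset.Icc (b₁ - 1) e₁, g l := by
      refine Finset.sum_le_sum_of_subset_of_nonneg ?_ fun k _ _ => hg0 k
      intro l hl
      rw [Finset.mem_image] at hl
      obtain ⟨k, hk, rfl⟩ := hl
      exact Finset.mem_Icc.2 (hmem k hk).2
    have h10 : 0 ≤ ∑ k ∈ ends (nc M) p q, g (a₀ + k) := Finset.sum_nonneg fun k _ => hg0 _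
    rw [h7] at h5
    calc ‖W‖ ^ 2 ≤ ((ends (nc M) p q).card : ℝ) * ∑ k ∈ ends (nc M) p q, g (a₀ + k) := h4.trans h5
      _ ≤ 6 * ∑ k ∈ ends (nc M) p q, g (a₀ + k) := by gcongr
      _ ≤ 6 * ∑ l ∈ Finset.Icc (b₁ - 1) e₁, g l := by rw [h8]; gcongr
  -- the full cells and the positions
  obtain ⟨A, B', hAB, hA, hB⟩ : ∃ A B' : ℂ, S + z * (xy - xx) = A + B' ∧ ‖A‖ ^ 2 ≤ D ∧
      ‖B'‖ ^ 2 ≤ ‖z‖ ^ 2 * (24 * ms M) ^ 2 := by
    rcases Nat.lt_or_ge (p + 2) (q - 1) with h | h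
    · have hS2 := val_full (F := F) hID a₀ (p := p) (q := q) h.le (by omega)
      rw [← hS] at hS2
      refine ⟨S - z * (gateC M (a₀ + (q - 1)) - gateC M (a₀ + (p + 2))),
        z * ((xy - xx) - (gateC M (a₀ + (p + 2)) - gateC M (a₀ + (q - 1)))), by ring, ?_, ?_⟩
      · have h3 := (le_dv (M := M) z (cval M w col Θ)
          (Nat.mod_lt (a₀ + (p + 2)) (show 0 < nc M by omega)).le
          (Nat.mod_lt (a₀ + (q - 1)) (show 0 < nc M by omega)).le).trans hdv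
        rw [gateC_mod, gateC_mod, ← hS2] at h3
        exact (ENNReal.ofReal_le_ofReal_iff hD).1 h3
      · rw [norm_mul, mul_pow]
        have h3 := H112.dist_gates hM (a := a₀ + (p + 2)) (b := a₀ + (q - 1)) (p := a₀ + p)
          (q := a₀ + q) (by omega) (by omega) (by omega) (by omega) hxy hxx
        gcongr
    · refine ⟨0, z * (xy - xx), ?_, by simpa using hD, ?_⟩
      · rw [hS, Finset.Ico_eq_empty_of_le h, Finset.sum_empty]
      · rw [norm_mul, mul_pow]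
        have h3 := H112.dist_gates hM (a := a₀ + (p + 2)) (b := a₀ + (p + 2)) (p := a₀ + p)
          (q := a₀ + q) (by omega) (by omega) (by omega) (by omega) hxy hxx
        rw [sub_self, sub_zero] at h3
        gcongr
  have e1 : S + W + z * (xy - xx) = A + B' + W := by
    rw [← hAB]; ring
  rw [e1]
  have h3 := sq3 A B' W
  linarith

end Vale.Agent.P148.R2.H409
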