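import Vale.Agent.P148.R2.H409.Base
import Vale.Agent.P148.R2.H112.CalG4
import Vale.Agent.P148.R2.H126.Fr
import Vale.Agent.P148.R2.H953.CalEv

/-!
# P148, row CAL: the windows of the closing chain of the frozen face, frame form

One fresh colouring `s`, one cell `k` next to an end of the chain: the part of the cell `k` of the chain
is bounded by the energy of the world with the far part of the ring frozen, and by the part of the cell
`k` of the class of the frozen face.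
-/

set_option linter.unusedSectionVars false

open Set Metric Function
open scoped Classical

namespace Vale.Agent.P148.R2.H409

open Vale.Agent.P148.R2.H258 Vale.Agent.P148.R2.H659
open Vale.Agent.P148.R2.N (ms nc gateC cellC csq ms_pos)
open Vale.Agent.P148.R2.H592 (HullTri nbr)
open Vale.Agent.P148.R2.H566 (W0)
open Vale.Agent.P148.R2.H609 (TP piX)
open Vale.Agent.P148.R2.H172 (Frame)
open Vale.Agent.P148.R2.H251 (InArc W3 Path3 Three3 TC pi3 patt cy gapL)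
open Vale.Agent.P148.R2.H959 (reg Mrk ag bg)
open Vale.Agent.P148.R2.H871 (per sa)
open Vale.Agent.P148.R2.H532 (FX rX dX sX WX cgood sX_off sX_root sX_none)
open Vale.Agent.P148.R2.H838 (cotot_eq)
open Vale.Agent.P148.R2.H126 (NR frame_bw ob_foot Win SeenEq BW)
open Vale.Agent.P148.R2.H112 (mkZ clo_all hlink_win)
open Vale.Agent.P148.R2.H953 (qd qd_facts qd_mi CloW)

section win

variable {M : ℕ} {w : W0} {x₀ : w.X} {col : w.X → Bool} {F : Frame M w x₀ col}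
  {g₀ g₁ g₂ n s₁ s₂ : ℕ} {c : ℕ → w.D} {τ : ℕ → ℕ}

/-- The cell `k` is next to one of the two ends of the chain `iy, …, ix - 1`. -/
def NEk (F : Frame M w x₀ col) (a₀ iy ix k : ℕ) : Prop :=
  ∃ i, (i = iy ∨ i = ix) ∧ ∃ u, F.t u ≤ F.t a₀ + F.bt a₀ i ∧ F.t a₀ + F.bt a₀ i < F.t (u + 1) ∧
    u ≤ k + 1 ∧ k ≤ u + 1

open Classical in
/-- **One window**, one fresh colouring. -/
theorem hv_window [Fintype w.X] [Fintype w.D] (hM : 0 < M) (hm : Mrk F g₀ g₁ g₂ n s₁ s₂ c τ)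
    (h01 : g₀ ≤ g₁) (h12 : g₁ ≤ g₂) (h20 : g₂ ≤ g₀ + nc M)
    (hblk : col ((TP w x₀).src F.o) = true) {O3 : Fin 3 → Set ℂ} {h3 : Three3 w.X w.B O3}
    (hW : W3 (TP w x₀) (TC w.hull h3) (piX w) w.O col c n s₁ s₂
      (fun j => {v : w.X | v.1 ∈ O3 j}) (pi3 w.X O3) Sum.inl) {γ : Fin 3}
    (hlen : ag g₀ g₁ g₂ γ + 13 ≤ bg M g₀ g₁ g₂ γ) {Z Z' : Set w.X} {nr : w.X → w.X → Prop}
    (hZ : mkZ w M (ag g₀ g₁ g₂ γ) (bg M g₀ g₁ g₂ γ) (12 * ms M) ⊆ Z)
    (hZ' : mkZ w M (ag g₀ g₁ g₂ γ) (bg M g₀ g₁ g₂ γ) (12 * ms M) ⊆ Z')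
    {τ' : w.X → Bool} {s : w.X → Bool} {m : ℕ} {f : ℕ → w.D} {j₁ i₁ Nt : ℕ}
    (hclo : H953.Clo (TP w x₀) (TC w.hull h3) (piX w) w.O c n s₁ s₂ (pi3 w.X O3) Sum.inl
      (patt w.X O3 γ s) (qd (TC w.hull h3) (c (s₁ - 1)) γ) (γ + 1) (γ + 2) γ Z Z' nr τ' m f j₁ i₁
      Nt)
    {iy ix : ℕ} (hyx : iy < ix) (hix : ix < F.bn (ag g₀ g₁ g₂ γ + 4))
    (hy : F.bc (ag g₀ g₁ g₂ γ + 4) iy = c j₁) (hx : F.bc (ag g₀ g₁ g₂ γ + 4) ix = c i₁)
    (hty : F.t (bg M g₀ g₁ g₂ γ) ≤ F.t (ag g₀ g₁ g₂ γ + 4) + F.bt (ag g₀ g₁ g₂ γ + 4) iy)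
    (htx : F.t (ag g₀ g₁ g₂ γ + 4) + F.bt (ag g₀ g₁ g₂ γ + 4) ix < F.t (ag g₀ g₁ g₂ γ + nc M))
    {k : ℕ} (hk1 : bg M g₀ g₁ g₂ γ ≤ k + 1) (hk2 : k ≤ ag g₀ g₁ g₂ γ + nc M)
    (hne : NEk F (ag g₀ g₁ g₂ γ + 4) iy ix k) {Φ : w.D → ℂ}
    (hsupp : ∀ d, ∀ u, ag g₀ g₁ g₂ γ + 4 ≤ u → u < ag g₀ g₁ g₂ γ + 4 + nc M →
      ((TP w x₀).src d).1 ∈ reg M u → Φ d ≠ 0 → u ≤ k + 1 ∧ k ≤ u + 1) {L : ℕ}
    (hL : per (TP w x₀) col F.o ≤ L) :
    ‖∑ i ∈ Finset.Ico iy ix, Φ (F.bc (ag g₀ g₁ g₂ γ + 4) i)‖ ^ 2 ≤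
      2 * WX (TP w x₀) L (NR M w.X (k - 2) (k + 2))
        (F.ob (ag g₀ g₁ g₂ γ + 6), F.ob (bg M g₀ g₁ g₂ γ - 6)) col Φ
        (H953.glue (H126.Rs (TP w x₀) L (NR M w.X (k - 2) (k + 2)) (NR M w.X (k - 3) (k + 3))
          (F.ob (ag g₀ g₁ g₂ γ + 6)) col) col s) +
      2 * ‖∑ i ∈ Finset.Ico 1 m, Φ (f i)‖ ^ 2 := by
  have hP : (TP w x₀).Planar := H592.HullTri.planar258 _ _ _
  have hga : g₀ ≤ ag g₀ g₁ g₂ γ := by
    unfold ag; split_ifs <;> omega
  obtain ⟨ha, hb, hc⟩ := (qd_facts hW γ).2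
  have hq := (qd_facts hW γ).1
  obtain ⟨N', -, hN1, -, hN2, hN3, hcon, il, hil, hilγ, hilt, hlk⟩ :=
    clo_all hm hM h01 h12 h20 hW hq ha hb hc hZ hZ' hclo
  set A := ag g₀ g₁ g₂ γ with hA
  set B := bg M g₀ g₁ g₂ γ with hB
  have hl := F.base_loop (A + 4)
  have hf := F.base_feet (A + 4)
  have hBW := frame_bw F hM (a₀ := A + 4) (a₁ := A + 6) (a₂ := B - 6) (k := k) (L := L)
    (by omega) (by omega) (by omega) (by omega) (by omega) hL hl (F.base_main (A + 4))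
  rw [show A + 6 - (A + 4) = 2 by omega] at hBW
  have e1 : ((TP w x₀).st col)^[F.tb (A + 4) 2] (F.ob (A + 4)) = F.ob (A + 6) := by
    rw [ob_foot F]
  have e2 : ((TP w x₀).st col)^[F.tb (A + 4) (2 + (B - 6 - (A + 6)))] (F.ob (A + 4)) =
      F.ob (B - 6) := by
    rw [ob_foot F]
    congr 1
    omega
  obtain ⟨q, hwin, hq2⟩ := hBW.win hP
  have hseen := hBW.seenEq s
  have hmid := fun i h1 h2 => hBW.mid (i := i) h1 h2
  have hfar := fun (i u : ℕ) hq hi h1 h2 h3 h4 =>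
    hBW.near hP hwin (i := i) (u := u) hq hi h1 h2 h3 h4
  have hzero := hBW.zero hP hwin (ϑ := Φ)
  rw [e1, e2] at hwin hmid hfar
  rw [e1] at hseen hzero
  set a : w.D × w.D := (F.ob (A + 6), F.ob (B - 6)) with ha'
  set NN : Set w.X := NR M w.X (k - 2) (k + 2) with hNN
  set z : w.X → Bool := H953.glue (H126.Rs (TP w x₀) L NN (NR M w.X (k - 3) (k + 3))
    (F.ob (A + 6)) col) col s with hz
  have hwin2 := hwin.recol hseen
  have hcoll := hwin.coll
  have hfib := hwin.fibF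
  -- times
  have hK := F.t_add_nc
  have mono := fun {a b : ℕ} (h : a ≤ b) => F.lt.mono h
  have htb : ∀ u, F.tb (A + 4) u = F.t (A + 4 + u) - F.t (A + 4) := fun u => rfl
  have mu : ∀ u, F.t (A + 4) ≤ F.t (A + 4 + u) := fun u => F.lt.mono (by omega)
  -- `q ≤ iy`
  have hqy : q ≤ iy := by
    refine hBW.q_le hq2 hwin.hqn ?_
    rw [htb]
    have h1 : F.t (A + 4 + (2 + (B - 6 - (A + 6)) + 1)) ≤ F.t B := F.lt.mono (by omega)
    omega
  -- pieces
  have hpc : ∀ i < F.bn (A + 4), ∀ u, F.tb (A + 4) u ≤ F.bt (A + 4) i →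
      F.bt (A + 4) i < F.tb (A + 4) (u + 1) → u < nc M ∧
      ((TP w x₀).src (F.bc (A + 4) i)).1 ∈ reg M (A + 4 + u) := by
    intro i hi u u1 u2
    constructor
    · have h7 := hl.lt i hi
      rw [F.per_ob] at h7
      have h8 := F.tb_nc (A + 4)
      by_contra hcon2
      have := hf.mono (show nc M ≤ u by omega)
      omega
    · rw [← hl.hit i hi]
      unfold Frame.ob
      rw [← iterate_add_apply]
      have m1 := mu u
      have m2 := mu (u + 1)
      rw [htb] at u1 u2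
      exact (F.seen (A + 4 + u) _ (by omega) (by
        rw [show A + 4 + u + 1 = A + 4 + (u + 1) by omega]
        omega)).1
  -- the near end
  have hN : H126.Near (TP w x₀) (FX (TP w x₀) L NN a col) (some true) (some false)
      (F.bc (A + 4)) iy ∨ H126.Near (TP w x₀) (FX (TP w x₀) L NN a col) (some true) (some false)
      (F.bc (A + 4)) ix := by
    obtain ⟨i, hi, u, u1, u2, u3, u4⟩ := hne
    have hi2 : i < F.bn (A + 4) := by rcases hi with rfl | rfl <;> omega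
    have hge : iy ≤ i := by rcases hi with rfl | rfl <;> omega
    have hti : F.t B ≤ F.t (A + 4) + F.bt (A + 4) i := by
      rcases hge.eq_or_lt with h | h
      · rw [← h]; exact hty
      · have := hl.mono iy i h hi2
        omega
    have hBu : B < u + 1 := F.lt.lt_iff.1 (by omega)
    have h1 : H126.Near (TP w x₀) (FX (TP w x₀) L NN a col) (some true) (some false)
        (F.bc (A + 4)) i := by
      refine hfar i (u - (A + 4)) hq2 hi2 ?_ ?_ ?_ ?_
      · rw [htb, show A + 4 + (u - (A + 4)) = u by omega]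
        omega
      · rw [htb, show A + 4 + (u - (A + 4) + 1) = u + 1 by omega]
        have := mu (u + 1 - (A + 4))
        rw [show A + 4 + (u + 1 - (A + 4)) = u + 1 by omega] at this
        omega
      · omega
      · omega
    rcases hi with rfl | rfl
    · exact Or.inl h1
    · exact Or.inr h1
  -- colours
  have hα : patt w.X O3 γ s (Sum.inl (γ + 1)) = true := by
    rw [H251.patt_inl]
    have : ∀ γ : Fin 3, decide (γ + 1 ≠ γ) = true := by decide
    exact this γ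
  have hγ' : patt w.X O3 γ s (Sum.inl γ) = false := by
    rw [H251.patt_inl]
    simp
  have hcs : ∀ j, col ((TP w x₀).src (F.ob j)) = true := by
    intro j
    unfold Frame.ob
    rw [(TP w x₀).col_src_iter col]
    exact hblk
  have hc0 : (TP w x₀).Bi col (F.bc (A + 4) 0) := (hl.ring.mi 0 hl.ring.pos).bi
  have hct : ∀ j, col ((TP w x₀).tgt (F.ob j)) = false := by
    intro j
    have hbi : (TP w x₀).Bi col (F.ob j) := (F.base_loop j).bi
    have h1 := hcs j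
    unfold Tri.Bi at hbi
    rw [h1] at hbi
    cases h : col ((TP w x₀).tgt (F.ob j)) with
    | false => rfl
    | true => rw [h] at hbi; exact absurd rfl hbi
  have hbk : z ((TP w x₀).src (F.bc (A + 4) 0)) = patt w.X O3 γ s (Sum.inl (γ + 1)) := by
    rw [hα]
    have h1 := (hseen 0).1
    rw [iterate_zero, id] at h1
    rw [h1, ← hl.hit 0 hl.ring.pos, (TP w x₀).col_src_iter col]
    exact hcs _
  have hfree : ∀ v : w.X, piX w v ≠ w.O → ∀ i, v ∉ FX (TP w x₀) L NN a col i :=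
    fun v hv i hi => hv (hfib i v hi)
  have hRs : ∀ v ∈ H126.Rs (TP w x₀) L NN (NR M w.X (k - 3) (k + 3)) (F.ob (A + 6)) col,
      piX w v = w.O := by
    intro v hv
    have hS := hBW.scn
    rw [e1] at hS
    obtain ⟨i, hi⟩ := hS.Rs_seen hv
    have hO : piX w ((TP w x₀).src (((TP w x₀).st col)^[i] (F.ob (A + 6)))) = w.O ∧
        piX w ((TP w x₀).tgt (((TP w x₀).st col)^[i] (F.ob (A + 6)))) = w.O := by
      rw [← e1, ← iterate_add_apply]
      obtain ⟨m', hm'⟩ := H126.iter_bk (TP w x₀) col (F.ob (A + 4)) (F.bt (A + 4) 0)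
        (i + F.tb (A + 4) 2)
      rw [hl.hit 0 hl.ring.pos] at hm'
      rw [← hm']
      exact hl.ring.seen m'
    rcases hi with hi | hi
    · rw [← hi]; exact hO.1
    · rw [← hi]; exact hO.2
  have hfr : ∀ v : w.X, piX w v ≠ w.O → sX (TP w x₀) L NN a col z v =
      patt w.X O3 γ s (pi3 w.X O3 v) := by
    intro v hv
    rw [sX_off (hfree v hv), hz, H953.glue_not_mem (fun hR => hv (hRs v hR))]
    exact (H251.patt_free h3 γ s (fun hB => hv (H959.piX_eq_iff.2 hB))).symm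
  have hsw : sX (TP w x₀) L NN a col z (rX (TP w x₀) L NN a col none) =
      patt w.X O3 γ s (Sum.inl γ) := by
    rw [hγ', sX_none hcoll]
    exact hct _
  have htime : ∀ i < n, F.t (A + 8) ≤ F.t g₀ + τ i → F.t g₀ + τ i < F.t (B - 7) →
      (TP w x₀).src (c i) ∈ FX (TP w x₀) L NN a col none := by
    intro i hi h1 h2
    have h3 : F.t (A + 4) ≤ F.t (A + 8) := F.lt.mono (by omega)
    have h4 := hmid (F.t g₀ + τ i - F.t (A + 4)) (by
      rw [htb]
      have : F.t (A + 4 + (2 + 1)) ≤ F.t (A + 8) := F.lt.mono (by omega)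
      omega) (by
      rw [htb]
      have : F.t (B - 7) ≤ F.t (A + 4 + (2 + (B - 6 - (A + 6)) - 1)) := F.lt.mono (by omega)
      omega)
    have h5 : sa (TP w x₀) col (F.ob (A + 4)) (F.t g₀ + τ i - F.t (A + 4)) =
        (TP w x₀).src (c i) := by
      unfold sa Frame.ob
      rw [← iterate_add_apply, show F.t g₀ + τ i - F.t (A + 4) + F.t (A + 4) = τ i + F.t g₀ by
        omega, iterate_add_apply, hm.loop.hit i hi]
    rwa [h5] at h4
  have hwin3 := win3_le (T3 := TC w.hull h3) (σ3 := patt w.X O3 γ s) (Θ := Φ) hP hW hwin2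
    (qd_mi hW γ s) ha hc hclo.path hN1 hN2 hN3 hqy hyx hix (by rw [hx]) (by rw [hy]) hN hbk
    (σ2 := sX (TP w x₀) L NN a col z) hfr
    (fun v _ hv => sX_off hv)
    (by rw [hα, sX_root]; exact hcs _) (by rw [hα, sX_root]; exact hcs _) hsw
    (fun i hi hiγ hk => by
      obtain ⟨h1, h2⟩ := hcon i hi hiγ hk
      exact htime i hi h1 h2)
    (hlink_win hwin2 hfr hsw (fun v hv => hv.1) (htime il hil hilt.1 hilt.2) hlk)
    (fun i h1 h2 h3 => hzero (fun i hi u u1 u2 u3 u4 => by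
      obtain ⟨u5, u6⟩ := hpc i hi u u1 u2
      have := hsupp _ (A + 4 + u) (by omega) (by omega) u6 u4
      omega) i (by omega) (by omega) h3)
  refine hwin3.trans (le_of_eq ?_)
  unfold WX
  rw [cotot_eq hcoll]
  rfl

end win

end Vale.Agent.P148.R2.H409
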