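import Vale.Agent.P148.R2.H659.Close6
import Vale.Agent.P148.R2.H251.W3g
import Vale.Agent.P148.R2.H565.Mc2

/-!
# P148, row CAL: change of the base point of the main cycle

Two numberings of the main cycle differ by a rotation, and the closing chain of the frozen face does
not contain the base point when the base point lies in the third arc.
-/

namespace Vale.Agent.P148.R2.H409

open Function Vale.Agent.P148.R2.H258 Vale.Agent.P148.R2.H871 Vale.Agent.P148.R2.H659
  Vale.Agent.P148.R2.H251

variable {V V1 D : Type*} {T : Tri V D} {π : V → V1} {O : V1} {w : V → Bool} {o o' : D}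
  {c c' : ℕ → D} {n n' : ℕ} {τ τ' : ℕ → ℕ}

theorem ring_congr (h : Ring T π O w c n) (hc : ∀ i < n, c' i = c i) : Ring T π O w c' n where
  pos := h.pos
  mi := fun i hi => by rw [hc i hi]; exact h.mi i hi
  str := fun i hi => by rw [hc i hi, hc 0 h.pos]; exact h.str i hi
  next := fun i hi => by rw [hc _ hi, hc i (by omega)]; exact h.next i hi
  close := by
    have := h.pos
    rw [hc 0 h.pos, hc (n - 1) (by omega)]; exact h.close
  inj := fun i hi j hj => by rw [hc i hi, hc j hj]; exact h.inj i hi j hj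
  seen := fun k => by rw [hc 0 h.pos]; exact h.seen k
  ring := fun e h1 h2 => by
    obtain ⟨i, hi, h3⟩ := h.ring e h1 h2
    exact ⟨i, hi, by rw [hc i hi]; exact h3⟩

theorem loop_congr (h : Loop T π O w o n c τ) (hc : ∀ i < n, c' i = c i) :
    Loop T π O w o n c' τ where
  bi := h.bi
  ring := ring_congr h.ring hc
  hit := fun i hi => by rw [hc i hi]; exact h.hit i hi
  lt := h.lt
  mono := h.mono
  all := fun m hm hr => by
    rw [hc 0 h.ring.pos] at hr
    exact h.all m hm hr
  mem := fun i hi => by rw [hc i hi, hc 0 h.ring.pos]; exact h.mem i hi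

/-- The members of the class of the main cycle. -/
theorem loop_rel [Finite D] (h : Loop T π O w o n c τ) (g : D) :
    T.Rel w (c 0) g ↔ ∃ i < n, g = c i := by
  constructor
  · intro hg
    obtain ⟨-, -, k, -, h1, -⟩ := id hg
    have h0 := h.hit 0 h.ring.pos
    rw [← h0, ← iterate_add_apply] at h1
    have h2 : (T.st w)^[(k + τ 0) % per T w o] o = (T.st w)^[k + τ 0] o :=
      iterate_mod_minimalPeriod_eq
    have h3 : (k + τ 0) % per T w o < per T w o := Nat.mod_lt _ (per_pos T w o)
    obtain ⟨i, hi, h4⟩ := h.all _ h3 (by rw [h2, h1]; exact hg)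
    refine ⟨i, hi, ?_⟩
    rw [← h.hit i hi, h4, h2, h1]
  · rintro ⟨i, hi, rfl⟩
    exact h.mem i hi

/-- **Rotation.** -/
theorem loop_rot [Finite D] (h : Loop T π O w o n c τ) (h' : Loop T π O w o' n' c' τ')
    (hr : T.Rel w (c 0) (c' 0)) :
    n' = n ∧ ∃ e < n, (∀ k < n, c' k = cy c n (e + k)) ∧
      Loop T π O w o' n (fun k => cy c n (e + k)) τ' := by
  have hn := h.ring.pos
  have hn' := h'.ring.pos
  obtain ⟨e, he, h0⟩ := (loop_rel h (c' 0)).1 hr
  have key : ∀ k < n', c' k = cy c n (e + k) := by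
    intro k
    induction k with
    | zero =>
      intro _
      unfold cy
      rw [add_zero, Nat.mod_eq_of_lt he, h0]
    | succ k ih =>
      intro hk
      have h1 := ih (by omega)
      have h2 := h'.ring.next k hk
      rw [h1, ← cy_next h.ring] at h2
      obtain ⟨i, hi, h3⟩ := (loop_rel h (c' (k + 1))).1
        (T.rel_trans hr (h'.mem (k + 1) hk))
      rw [h3] at h2 ⊢
      have h4 := h.ring.inj i hi _ (Nat.mod_lt (e + k + 1) hn) h2
      unfold cy
      rw [h4, add_assoc]
  have hnn : n' = n := by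
    rcases Nat.lt_trichotomy n' n with h1 | h1 | h1
    · exfalso
      have h2 := h'.ring.close
      rw [key 0 hn', key (n' - 1) (by omega), ← cy_next h.ring,
        show e + (n' - 1) + 1 = e + n' by omega] at h2
      have := cy_inj h.ring (a := e) (by omega) (by omega) (by omega) (by omega) h2
      omega
    · exact h1
    · exfalso
      have h2 : c' n = c' 0 := by
        rw [key n h1, key 0 hn']
        unfold cy
        rw [add_zero, Nat.add_mod_right]
      have := h'.ring.inj n h1 0 hn' (by rw [h2])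
      omega
  subst hnn
  exact ⟨rfl, e, he, key, loop_congr h' (fun i hi => (key i hi).symm)⟩

/-- Times less than the period are determined by the dart. -/
theorem time_unique [Finite D] {a b : ℕ} (ha : a < per T w o) (hb : b < per T w o)
    (h : (T.st w)^[a] o = (T.st w)^[b] o) : a = b :=
  (iterate_eq_iterate_iff_of_lt_minimalPeriod (f := T.st w) (x := o) ha hb).1 h

theorem per_st [Finite D] (s : ℕ) : per T w ((T.st w)^[s] o) = per T w o := H871.per_iter T w o s

/-- **Rotation, with times**: the base of the second numbering is at the time `s`. -/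
theorem loop_rot_time [Finite D] (h : Loop T π O w o n c τ) {s : ℕ} (hs : s < per T w o)
    (h' : Loop T π O w ((T.st w)^[s] o) n' c' τ') (hr : T.Rel w (c 0) (c' 0))
    (hw : s + τ' 0 < per T w o) :
    n' = n ∧ ∃ e < n, (∀ k < n, c' k = cy c n (e + k)) ∧
      Loop T π O w ((T.st w)^[s] o) n (fun k => cy c n (e + k)) τ' ∧
      ∀ k < n, s + τ' k = τ ((e + k) % n) + if e + k < n then 0 else per T w o := by
  obtain ⟨hnn, e, he, hc, hL⟩ := loop_rot h h' hr
  subst hnn
  have hn := h.ring.pos
  refine ⟨rfl, e, he, hc, hL, ?_⟩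
  have hit : ∀ k < n', (T.st w)^[s + τ' k] o = cy c n' (e + k) := by
    intro k hk
    rw [← hc k hk, ← h'.hit k hk, ← iterate_add_apply, add_comm]
  have hit2 : ∀ k, (T.st w)^[τ ((e + k) % n')] o = cy c n' (e + k) := by
    intro k
    rw [h.hit _ (Nat.mod_lt _ hn)]
    rfl
  have hlt := h'.lt
  rw [per_st] at hlt
  have hper : ∀ k, (T.st w)^[k + per T w o] o = (T.st w)^[k] o := by
    intro k
    rw [iterate_add_apply]
    congr 1
    exact iterate_minimalPeriod
  -- the first time
  have h0 : s + τ' 0 = τ e := by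
    have e1 := hit 0 hn
    have e2 := hit2 0
    rw [add_zero, Nat.mod_eq_of_lt he] at e2
    rw [add_zero] at e1
    exact time_unique hw (h.lt e he) (e1.trans e2.symm)
  -- members before `e` are before `s`
  have hbefore : ∀ i < e, τ i < s := by
    intro i hi
    by_contra hc'
    push Not at hc'
    have h1 := h.mono i e hi he
    have h2 : T.Rel w (c' 0) ((T.st w)^[τ i - s] ((T.st w)^[s] o)) := by
      rw [← iterate_add_apply, Nat.sub_add_cancel hc', h.hit i (by omega)]
      exact T.rel_trans (T.rel_symm hr) (h.mem i (by omega))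
    obtain ⟨l, hl, h3⟩ := h'.all (τ i - s) (by rw [per_st]; have := h.lt i (by omega); omega) h2
    rcases Nat.eq_zero_or_pos l with h4 | h4
    · subst h4; omega
    · have := h'.mono 0 l h4 hl
      omega
  intro k hk
  have e1 := hit k hk
  have e2 := hit2 k
  have hk' := hlt k hk
  by_cases hek : e + k < n'
  · rw [if_pos hek, add_zero]
    rw [Nat.mod_eq_of_lt hek] at e2 ⊢
    have h1 := h.lt (e + k) hek
    by_cases h2 : s + τ' k < per T w o
    · exact time_unique h2 h1 (e1.trans e2.symm)
    · exfalso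
      have h3 : (T.st w)^[s + τ' k - per T w o] o = (T.st w)^[τ (e + k)] o := by
        rw [e2, ← e1, ← hper (s + τ' k - per T w o)]
        congr 1
        omega
      have h4 := time_unique (by omega) h1 h3
      rcases Nat.eq_zero_or_pos k with h5 | h5
      · subst h5; omega
      · have h6 := h.mono e (e + k) (by omega) hek
        omega
  · rw [if_neg hek]
    have hmod : (e + k) % n' = e + k - n' := by
      rw [Nat.mod_eq_sub_mod (by omega), Nat.mod_eq_of_lt (by omega)]
    rw [hmod] at e2 ⊢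
    have hb := hbefore (e + k - n') (by omega)
    have h1 := h.lt (e + k - n') (by omega)
    by_cases h2 : s + τ' k < per T w o
    · exfalso
      have h3 := time_unique h2 h1 (e1.trans e2.symm)
      omega
    · have h3 : (T.st w)^[s + τ' k - per T w o] o = (T.st w)^[τ (e + k - n')] o := by
        rw [e2, ← e1, ← hper (s + τ' k - per T w o)]
        congr 1
        omega
      have h4 := time_unique (by omega) h1 h3
      omega

/-- **The chain does not contain the base point**: `e` in the third arc. -/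
theorem chain_base {s₁ s₂ : ℕ} (h1 : 0 < s₁) (h12 : s₁ < s₂) (h2 : s₂ < n) {α β γ : Fin 3}
    (hαβγ : (α = 1 ∧ β = 2 ∧ γ = 0) ∨ (α = 0 ∧ β = 1 ∧ γ = 2) ∨ (α = 2 ∧ β = 0 ∧ γ = 1))
    {e j₁ i₁ : ℕ} (he : InArc s₁ s₂ n γ e) (hj : InArc s₁ s₂ n α j₁) (hi : InArc s₁ s₂ n β i₁) :
    ∃ iy, (e + iy) % n = j₁ ∧ 0 < gapL n j₁ i₁ ∧ iy + gapL n j₁ i₁ < n ∧
      (e + (iy + gapL n j₁ i₁)) % n = i₁ := by
  have d10 : (1 : Fin 3) ≠ 0 := by decide
  have d12 : (1 : Fin 3) ≠ 2 := by decide
  have d02 : (0 : Fin 3) ≠ 2 := by decide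
  have d01 : (0 : Fin 3) ≠ 1 := by decide
  have d20 : (2 : Fin 3) ≠ 0 := by decide
  have d21 : (2 : Fin 3) ≠ 1 := by decide
  unfold InArc at he hj hi
  unfold gapL
  rcases hαβγ with ⟨rfl, rfl, rfl⟩ | ⟨rfl, rfl, rfl⟩ | ⟨rfl, rfl, rfl⟩ <;>
    simp only [d10, d12, d02, d01, d20, d21, false_and, false_or, or_false, true_and] at he hj hi
  · -- `α = 1`, `β = 2`, `γ = 0`
    have e1 : (i₁ + n - j₁) % n = i₁ - j₁ := by
      rw [show i₁ + n - j₁ = (i₁ - j₁) + n by omega, Nat.add_mod_right, Nat.mod_eq_of_lt (by omega)]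
    refine ⟨j₁ + n - e, ?_, ?_, ?_, ?_⟩
    · rw [show e + (j₁ + n - e) = j₁ + n by omega, Nat.add_mod_right, Nat.mod_eq_of_lt (by omega)]
    · rw [e1]; omega
    · rw [e1]; omega
    · rw [e1, show e + (j₁ + n - e + (i₁ - j₁)) = i₁ + n by omega, Nat.add_mod_right,
        Nat.mod_eq_of_lt (by omega)]
  · -- `α = 0`, `β = 1`, `γ = 2`
    have e1 : (i₁ + n - j₁) % n = i₁ + n - j₁ := Nat.mod_eq_of_lt (by omega)
    refine ⟨j₁ - e, ?_, ?_, ?_, ?_⟩
    · rw [show e + (j₁ - e) = j₁ by omega, Nat.mod_eq_of_lt (by omega)]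
    · rw [e1]; omega
    · rw [e1]; omega
    · rw [e1, show e + (j₁ - e + (i₁ + n - j₁)) = i₁ + n by omega, Nat.add_mod_right,
        Nat.mod_eq_of_lt (by omega)]
  · -- `α = 2`, `β = 0`, `γ = 1`
    have e1 : (i₁ + n - j₁) % n = i₁ - j₁ := by
      rw [show i₁ + n - j₁ = (i₁ - j₁) + n by omega, Nat.add_mod_right, Nat.mod_eq_of_lt (by omega)]
    refine ⟨j₁ - e, ?_, ?_, ?_, ?_⟩
    · rw [show e + (j₁ - e) = j₁ by omega, Nat.mod_eq_of_lt (by omega)]
    · rw [e1]; omega
    · rw [e1]; omega
    · rw [e1, show e + (j₁ - e + (i₁ - j₁)) = i₁ by omega, Nat.mod_eq_of_lt (by omega)]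

/-- The sum over the closing chain, in the numbering with the base point in the third arc. -/
theorem sum_base {M : Type*} [AddCommMonoid M] {e iy j₁ L : ℕ} (he : (e + iy) % n = j₁)
    (Θ : D → M) : ∑ k ∈ Finset.range L, Θ (cy c n (j₁ + k)) =
      ∑ i ∈ Finset.Ico iy (iy + L), Θ (cy c n (e + i)) := by
  rw [Finset.sum_Ico_eq_sum_range, Nat.add_sub_cancel_left]
  refine Finset.sum_congr rfl fun k _ => ?_
  unfold cy
  rw [← he, Nat.mod_add_mod, add_assoc]

end Vale.Agent.P148.R2.H409
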